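import Vale.Agent.P272.K.H.Res
import Vale.Agent.P272.K.LIN.Hol
import Vale.Agent.P116.FK.Pom

/-! P267 / EG-NN, part 1: the Cauchy transform of compactly supported functions on `ℂ`, bounds in
the space `Hol w ℂ` of bounded Hölder functions of exponent `1/2`. helper515. -/

open MeasureTheory Real Set Filter Topology
open scoped RealInnerProductSpace ContDiff NNReal ComplexConjugate Convolution

noncomputable section

set_option linter.unusedSectionVars false
set_option linter.unusedVariables false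
set_option linter.unusedSimpArgs false

namespace Vale.Agent.P267.H515

open Vale.Agent.P272.K.LIN Vale.Agent.P272.K.H

/-- the Hölder weight -/
def ww (x y : ℂ) : ℝ≥0 := ⟨‖x - y‖ ^ (1 / 2 : ℝ), by positivity⟩

@[simp] theorem coe_ww (x y : ℂ) : (ww x y : ℝ) = ‖x - y‖ ^ (1 / 2 : ℝ) := rfl

/-- bounded Hölder functions on `ℂ` of exponent `1/2` -/
abbrev Z : Type := Hol ww ℂ

theorem Z.sup (f : Z) (x : ℂ) : ‖f x‖ ≤ ‖f‖ := Hol.norm_apply_le f x

theorem Z.hol (f : Z) (x y : ℂ) : ‖f x - f y‖ ≤ ‖f‖ * ‖x - y‖ ^ (1 / 2 : ℝ) :=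
  Hol.norm_sub_le' f x y

theorem Z.holB (f : Z) : HolB (1 / 2) ‖f‖ (f : ℂ → ℂ) := fun x y => f.hol x y

theorem Z.continuous (f : Z) : Continuous (f : ℂ → ℂ) := f.holB.continuous (by norm_num)

/-- bounded Lipschitz functions are Hölder -/
theorem hol_of_lip {V : Type*} [NormedAddCommGroup V] {f : ℂ → V} {A L : ℝ} (hA : 0 ≤ A)
    (hL : 0 ≤ L) (h0 : ∀ x, ‖f x‖ ≤ A) (h1 : ∀ x y, ‖f x - f y‖ ≤ L * ‖x - y‖) (x y : ℂ) :
    ‖f x - f y‖ ≤ (2 * A + L) * ‖x - y‖ ^ (1 / 2 : ℝ) := by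
  rcases le_total ‖x - y‖ 1 with h | h
  · have h2 : ‖x - y‖ ≤ ‖x - y‖ ^ (1 / 2 : ℝ) := by
      conv_lhs => rw [← Real.rpow_one ‖x - y‖]
      exact Real.rpow_le_rpow_of_exponent_ge_of_imp (norm_nonneg _) h (by norm_num)
        (fun _ h => by norm_num at h)
    calc ‖f x - f y‖ ≤ L * ‖x - y‖ := h1 x y
      _ ≤ L * ‖x - y‖ ^ (1 / 2 : ℝ) := mul_le_mul_of_nonneg_left h2 hL
      _ ≤ _ := mul_le_mul_of_nonneg_right (by linarith) (by positivity)
  · have h2 : 1 ≤ ‖x - y‖ ^ (1 / 2 : ℝ) := Real.one_le_rpow h (by norm_num)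
    calc ‖f x - f y‖ ≤ ‖f x‖ + ‖f y‖ := norm_sub_le _ _
      _ ≤ 2 * A := by linarith [h0 x, h0 y]
      _ ≤ 2 * A * ‖x - y‖ ^ (1 / 2 : ℝ) := le_mul_of_one_le_right (by linarith) h2
      _ ≤ _ := mul_le_mul_of_nonneg_right (by linarith) (by positivity)

/-! ### the retraction onto the closed unit disc -/

/-- the radial retraction of `ℂ` onto the closed unit disc -/
def ret (z : ℂ) : ℂ := ((max 1 ‖z‖ : ℝ) : ℂ)⁻¹ * z

theorem norm_ret_le (z : ℂ) : ‖ret z‖ ≤ 1 := by
  unfold ret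
  rw [norm_mul, norm_inv, Complex.norm_real, Real.norm_of_nonneg (by positivity)]
  have h : 0 < max 1 ‖z‖ := lt_of_lt_of_le one_pos (le_max_left _ _)
  rw [inv_mul_le_iff₀ h, mul_one]
  exact le_max_right _ _

theorem ret_of_le {z : ℂ} (h : ‖z‖ ≤ 1) : ret z = z := by
  unfold ret
  rw [max_eq_left h]
  simp

theorem ret_lip (x y : ℂ) : ‖ret x - ret y‖ ≤ 2 * ‖x - y‖ := by
  unfold ret
  set m := max 1 ‖x‖ with hm
  set n := max 1 ‖y‖ with hn
  have hm1 : 1 ≤ m := le_max_left _ _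
  have hn1 : 1 ≤ n := le_max_left _ _
  have hm0 : 0 < m := by linarith
  have hn0 : 0 < n := by linarith
  have hyn : ‖y‖ ≤ n := le_max_right _ _
  have hmn : |m - n| ≤ ‖x - y‖ := by
    have h := abs_max_sub_max_le_max 1 ‖x‖ 1 ‖y‖
    rw [sub_self, abs_zero] at h
    exact (h.trans (max_le (abs_nonneg _) le_rfl)).trans (abs_norm_sub_norm_le _ _)
  have e : (m : ℂ)⁻¹ * x - (n : ℂ)⁻¹ * y = (m : ℂ)⁻¹ * (x - y) + ((n : ℂ) - m) * ((m : ℂ)⁻¹ * (n : ℂ)⁻¹ * y) := by
    have h1 : (m : ℂ) ≠ 0 := by exact_mod_cast hm0.ne'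
    have h2 : (n : ℂ) ≠ 0 := by exact_mod_cast hn0.ne'
    field_simp
    ring
  rw [e]
  refine (norm_add_le _ _).trans ?_
  have h1 : ‖(m : ℂ)⁻¹ * (x - y)‖ ≤ ‖x - y‖ := by
    rw [norm_mul, norm_inv, Complex.norm_real, Real.norm_of_nonneg hm0.le]
    exact mul_le_of_le_one_left (norm_nonneg _) (inv_le_one_of_one_le₀ hm1)
  have h2 : ‖((n : ℂ) - m) * ((m : ℂ)⁻¹ * (n : ℂ)⁻¹ * y)‖ ≤ ‖x - y‖ := by
    rw [norm_mul, norm_mul, norm_mul, norm_inv, norm_inv, Complex.norm_real, Complex.norm_real,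
      Real.norm_of_nonneg hm0.le, Real.norm_of_nonneg hn0.le, ← Complex.ofReal_sub,
      Complex.norm_real, Real.norm_eq_abs, abs_sub_comm]
    have h3 : m⁻¹ * n⁻¹ * ‖y‖ ≤ 1 := by
      rw [mul_assoc]
      have h4 : n⁻¹ * ‖y‖ ≤ 1 := by
        rw [inv_mul_le_iff₀ hn0, mul_one]; exact hyn
      exact mul_le_one₀ (inv_le_one_of_one_le₀ hm1) (by positivity) h4
    calc |m - n| * (m⁻¹ * n⁻¹ * ‖y‖) ≤ ‖x - y‖ * 1 :=
          mul_le_mul hmn h3 (by positivity) (norm_nonneg _)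
      _ = _ := mul_one _
  linarith

/-! ### the cutoff function and the extension operator -/

/-- the bump function: `1` on the closed unit disc, support in the disc of radius `3/2` -/
def bmp : ContDiffBump (0 : ℂ) := ⟨1, 3 / 2, one_pos, by norm_num⟩

/-- the cutoff function -/
def chi (z : ℂ) : ℂ := (bmp z : ℝ)

theorem chi_smooth : ContDiff ℝ ∞ chi := Complex.ofRealCLM.contDiff.comp bmp.contDiff

theorem chi_one {z : ℂ} (h : ‖z‖ ≤ 1) : chi z = 1 := by
  have : bmp z = 1 := bmp.one_of_mem_closedBall (by simpa [bmp] using h)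
  simp [chi, this]

theorem norm_chi_le (z : ℂ) : ‖chi z‖ ≤ 1 := by
  rw [chi, Complex.norm_real, Real.norm_of_nonneg bmp.nonneg]
  exact bmp.le_one

theorem chi_zero' {z : ℂ} (h : 3 / 2 ≤ ‖z‖) : chi z = 0 := by
  have : bmp z = 0 := bmp.zero_of_le_dist (by simpa [bmp] using h)
  simp [chi, this]

theorem chi_zero {z : ℂ} (h : 2 ≤ ‖z‖) : chi z = 0 := chi_zero' (by linarith)

theorem chi_supp : HasCompactSupport chi := by
  refine HasCompactSupport.intro (isCompact_closedBall (0 : ℂ) 2) fun z hz => ?_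
  rw [mem_closedBall_zero_iff, not_le] at hz
  exact chi_zero hz.le

theorem chi_lip : ∃ L : ℝ, 0 ≤ L ∧ ∀ x y, ‖chi x - chi y‖ ≤ L * ‖x - y‖ := by
  obtain ⟨L, hL⟩ := (chi_smooth.of_le (by simp : (1 : WithTop ℕ∞) ≤ ∞)).lipschitzWith_of_hasCompactSupport
    chi_supp one_ne_zero
  refine ⟨L, L.2, fun x y => ?_⟩
  have := hL.dist_le_mul x y
  rwa [dist_eq_norm, dist_eq_norm] at this

/-- the cutoff function as an element of `Z` -/
def chiZ : Z := ⟨chi, ⟨1, norm_chi_le⟩, by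
  obtain ⟨L, hL0, hL⟩ := chi_lip
  exact ⟨2 * 1 + L, fun x y => hol_of_lip zero_le_one hL0 norm_chi_le hL x y⟩⟩

@[simp] theorem chiZ_apply (z : ℂ) : chiZ z = chi z := rfl

theorem ret_hol (f : Z) (x y : ℂ) : ‖f (ret x) - f (ret y)‖ ≤ 2 * ‖f‖ * ‖x - y‖ ^ (1 / 2 : ℝ) := by
  refine (f.hol _ _).trans ?_
  have h1 : ‖ret x - ret y‖ ^ (1 / 2 : ℝ) ≤ (2 * ‖x - y‖) ^ (1 / 2 : ℝ) :=
    Real.rpow_le_rpow (norm_nonneg _) (ret_lip x y) (by norm_num)
  rw [Real.mul_rpow (by norm_num) (norm_nonneg _)] at h1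
  have h2 : (2 : ℝ) ^ (1 / 2 : ℝ) ≤ 2 := by
    conv_rhs => rw [← Real.rpow_one 2]
    exact Real.rpow_le_rpow_of_exponent_le (by norm_num) (by norm_num)
  have h3 : 0 ≤ ‖x - y‖ ^ (1 / 2 : ℝ) := by positivity
  calc ‖f‖ * ‖ret x - ret y‖ ^ (1 / 2 : ℝ) ≤ ‖f‖ * (2 * ‖x - y‖ ^ (1 / 2 : ℝ)) := by
        refine mul_le_mul_of_nonneg_left (h1.trans ?_) (norm_nonneg _)
        exact mul_le_mul_of_nonneg_right h2 h3
    _ = _ := by ring

/-- composition with the retraction -/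
def retZ : Z →L[ℝ] Z :=
  LinearMap.mkContinuous
    { toFun := fun f => (⟨fun x => f (ret x), ⟨‖f‖, fun x => f.sup _⟩,
        ⟨2 * ‖f‖, fun x y => ret_hol f x y⟩⟩ : Z)
      map_add' := fun f g => rfl
      map_smul' := fun c f => rfl } 3 fun f => by
    have := Hol.norm_le_of (f := (⟨fun x => f (ret x), ⟨‖f‖, fun x => f.sup _⟩,
        ⟨2 * ‖f‖, fun x y => ret_hol f x y⟩⟩ : Z)) (norm_nonneg f)
        (by positivity : 0 ≤ 2 * ‖f‖) (fun x => f.sup _) (fun x y => ret_hol f x y)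
    exact this.trans (le_of_eq (by ring))

@[simp] theorem retZ_apply (f : Z) (x : ℂ) : retZ f x = f (ret x) := rfl

/-- the extension operator: `χ · (f ∘ ret)`; only the values on the closed unit disc matter -/
def ext : Z →L[ℝ] Z := (Hol.bilL (ContinuousLinearMap.mul ℝ ℂ) chiZ).comp retZ

theorem ext_apply (f : Z) (x : ℂ) : ext f x = chi x * f (ret x) := rfl

theorem ext_eq (f : Z) {x : ℂ} (h : ‖x‖ ≤ 1) : ext f x = f x := by
  rw [ext_apply, chi_one h, ret_of_le h, one_mul]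

theorem norm_ext_le {f : Z} {A : ℝ} (h : ∀ x, ‖x‖ ≤ 1 → ‖f x‖ ≤ A) (x : ℂ) : ‖ext f x‖ ≤ A := by
  have h1 := h (ret x) (norm_ret_le x)
  rw [ext_apply, norm_mul]
  have h0 : 0 ≤ A := (norm_nonneg _).trans h1
  calc ‖chi x‖ * ‖f (ret x)‖ ≤ 1 * A := mul_le_mul (norm_chi_le x) h1 (norm_nonneg _) zero_le_one
    _ = A := one_mul A

/-! ### the Cauchy transform -/

/-- the Cauchy kernel -/
def ck (t : ℂ) : ℂ := (π : ℂ)⁻¹ * t⁻¹

/-- the Cauchy transform -/
def Cau (g : ℂ → ℂ) : ℂ → ℂ := ck ⋆[ContinuousLinearMap.mul ℝ ℂ, volume] g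

theorem Cau_apply (g : ℂ → ℂ) (x : ℂ) : Cau g x = ∫ t, ck t * g (x - t) := rfl

theorem integrableOn_inv_ball (R : ℝ) :
    IntegrableOn (fun z : ℂ => ‖z‖⁻¹) (Metric.ball (0 : ℂ) R) := by
  rw [integrableOn_fun_norm_addHaar (volume : Measure ℂ) (f := fun r : ℝ => r⁻¹)]
  rw [Complex.finrank_real_complex]
  have : IntegrableOn (fun _ : ℝ => (1 : ℝ)) (Set.Ioo 0 R) := by
    simp
  refine this.congr_fun ?_ measurableSet_Ioo
  intro r hr
  have : r ≠ 0 := ne_of_gt hr.1
  simp only [smul_eq_mul]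
  rw [show 2 - 1 = 1 from rfl, pow_one, mul_inv_cancel₀ this]

theorem measurable_ck : Measurable ck := measurable_const.mul measurable_inv

theorem norm_ck (t : ℂ) : ‖ck t‖ = π⁻¹ * ‖t‖⁻¹ := by
  rw [ck, norm_mul, norm_inv, norm_inv, Complex.norm_real, Real.norm_of_nonneg Real.pi_pos.le]

theorem locallyIntegrable_ck : LocallyIntegrable ck := by
  have h : LocallyIntegrable (fun z : ℂ => π⁻¹ * ‖z‖⁻¹) := by
    intro x
    exact ⟨Metric.ball 0 (‖x‖ + 1), Metric.isOpen_ball.mem_nhds (by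
      rw [mem_ball_zero_iff]; linarith), (integrableOn_inv_ball _).const_mul _⟩
  refine h.mono measurable_ck.aestronglyMeasurable (Eventually.of_forall fun z => ?_)
  rw [norm_ck, Real.norm_of_nonneg (by positivity)]

/-- mass of the kernel on discs of radius `2` -/
def k2 : ℝ := π⁻¹ * ((∫ t in Metric.ball (0 : ℂ) 1, ‖t‖⁻¹) + volume.real (Metric.ball (0 : ℂ) 2))

theorem k2_nonneg : 0 ≤ k2 := by
  unfold k2
  have : 0 ≤ ∫ t in Metric.ball (0 : ℂ) 1, ‖t‖⁻¹ := integral_nonneg fun _ => by positivity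
  positivity

theorem integrableOn_ck_ball (x : ℂ) : IntegrableOn ck (Metric.ball x 2) :=
  locallyIntegrable_ck.integrableOn_isCompact (isCompact_closedBall x 2) |>.mono_set
    Metric.ball_subset_closedBall

theorem integral_norm_ck_le (x : ℂ) : ∫ t in Metric.ball x 2, ‖ck t‖ ≤ k2 := by
  simp_rw [norm_ck]
  rw [integral_const_mul]
  unfold k2
  refine mul_le_mul_of_nonneg_left ?_ (by positivity)
  have hi : IntegrableOn (fun t : ℂ => ‖t‖⁻¹) (Metric.ball x 2) := by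
    refine (integrableOn_inv_ball (‖x‖ + 2)).mono_set fun t ht => ?_
    rw [Metric.mem_ball, dist_eq_norm] at ht
    rw [mem_ball_zero_iff]
    calc ‖t‖ = ‖(t - x) + x‖ := by rw [sub_add_cancel]
      _ ≤ ‖t - x‖ + ‖x‖ := norm_add_le _ _
      _ < _ := by linarith
  have h1 : ∫ t in Metric.ball x 2, ‖t‖⁻¹ =
      (∫ t in Metric.ball x 2 ∩ Metric.ball 0 1, ‖t‖⁻¹) +
        ∫ t in Metric.ball x 2 \ Metric.ball 0 1, ‖t‖⁻¹ :=
    (integral_inter_add_diff Metric.isOpen_ball.measurableSet hi).symm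
  rw [h1]
  refine add_le_add ?_ ?_
  · exact setIntegral_mono_set (integrableOn_inv_ball 1)
      (Eventually.of_forall fun t => by positivity)
      (Eventually.of_forall fun t ht => ht.2)
  · have h2 : ∫ t in Metric.ball x 2 \ Metric.ball 0 1, ‖t‖⁻¹ ≤
        ∫ t in Metric.ball x 2 \ Metric.ball 0 1, (1 : ℝ) := by
      refine setIntegral_mono_on (hi.mono_set diff_subset) ?_
        (Metric.isOpen_ball.measurableSet.diff Metric.isOpen_ball.measurableSet) fun t ht => ?_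
      · refine integrableOn_const ?_
        exact ((measure_mono diff_subset).trans_lt measure_ball_lt_top).ne
      · have : 1 ≤ ‖t‖ := by
          have := ht.2
          rw [mem_ball_zero_iff, not_lt] at this
          exact this
        exact inv_le_one_of_one_le₀ this
    refine h2.trans ?_
    rw [setIntegral_const, smul_eq_mul, mul_one]
    have h3 : volume.real (Metric.ball x 2) = volume.real (Metric.ball (0 : ℂ) 2) := by
      rw [Measure.real, Measure.real, Measure.addHaar_ball_center]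
    rw [← h3]
    exact measureReal_mono diff_subset measure_ball_lt_top.ne

theorem Cau_eq {g : ℂ → ℂ} (hs : ∀ x, 2 ≤ ‖x‖ → g x = 0) (x : ℂ) :
    Cau g x = ∫ t in Metric.ball x 2, ck t * g (x - t) := by
  rw [Cau_apply, setIntegral_eq_integral_of_forall_compl_eq_zero]
  intro t ht
  rw [Metric.mem_ball, dist_eq_norm, not_lt] at ht
  rw [hs (x - t) (by rwa [norm_sub_rev]), mul_zero]

/-- sup bound of the Cauchy transform -/
theorem Cau_bound {g : ℂ → ℂ} {A : ℝ} (hs : ∀ x, 2 ≤ ‖x‖ → g x = 0) (h0 : ∀ x, ‖g x‖ ≤ A)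
    (x : ℂ) : ‖Cau g x‖ ≤ k2 * A := by
  rw [Cau_eq hs]
  have h1 : ‖∫ t in Metric.ball x 2, ck t * g (x - t)‖ ≤ ∫ t in Metric.ball x 2, ‖ck t‖ * A := by
    refine norm_integral_le_of_norm_le ((integrableOn_ck_ball x).norm.mul_const A)
      (Eventually.of_forall fun t => ?_)
    rw [norm_mul]
    exact mul_le_mul_of_nonneg_left (h0 _) (norm_nonneg _)
  refine h1.trans ?_
  rw [integral_mul_const]
  exact mul_le_mul_of_nonneg_right (integral_norm_ck_le x) ((norm_nonneg _).trans (h0 0))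

theorem hcs_of {g : ℂ → ℂ} (hs : ∀ x, 2 ≤ ‖x‖ → g x = 0) : HasCompactSupport g := by
  refine HasCompactSupport.intro (isCompact_closedBall (0 : ℂ) 2) fun z hz => ?_
  rw [mem_closedBall_zero_iff, not_le] at hz
  exact hs z hz.le

theorem integrable_Cau {g : ℂ → ℂ} (hg : Continuous g) (hs : ∀ x, 2 ≤ ‖x‖ → g x = 0) (x : ℂ) :
    Integrable fun t => ck t * g (x - t) :=
  (hcs_of hs).convolutionExists_right (ContinuousLinearMap.mul ℝ ℂ) locallyIntegrable_ck hg x

theorem Cau_add {f g : ℂ → ℂ} (hf : Continuous f) (hsf : ∀ x, 2 ≤ ‖x‖ → f x = 0)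
    (hg : Continuous g) (hs : ∀ x, 2 ≤ ‖x‖ → g x = 0) (x : ℂ) :
    Cau (fun y => f y + g y) x = Cau f x + Cau g x := by
  rw [Cau_apply, Cau_apply, Cau_apply, ← integral_add (integrable_Cau hf hsf x)
    (integrable_Cau hg hs x)]
  refine integral_congr_ae (Eventually.of_forall fun t => ?_)
  simp only [mul_add]

theorem Cau_smul (c : ℂ) (f : ℂ → ℂ) (x : ℂ) :
    Cau (fun y => c * f y) x = c * Cau f x := by
  rw [Cau_apply, Cau_apply, ← integral_const_mul]
  refine integral_congr_ae (Eventually.of_forall fun t => ?_)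
  simp only
  ring

/-- difference bound of the Cauchy transform -/
theorem Cau_sub_bound {g : ℂ → ℂ} {B : ℝ} (hg : Continuous g) (hs : ∀ x, 2 ≤ ‖x‖ → g x = 0)
    (x y : ℂ) (hB : ∀ t, ‖g (x - t) - g (y - t)‖ ≤ B) : ‖Cau g x - Cau g y‖ ≤ 2 * k2 * B := by
  have hB0 : 0 ≤ B := (norm_nonneg _).trans (hB 0)
  rw [Cau_apply, Cau_apply, ← integral_sub (integrable_Cau hg hs x) (integrable_Cau hg hs y)]
  have hi : ∀ x, Integrable ((Metric.ball x 2).indicator fun t => ‖ck t‖ * B) := fun x =>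
    (integrable_indicator_iff Metric.isOpen_ball.measurableSet).2
      ((integrableOn_ck_ball x).norm.mul_const B)
  have h1 : ‖∫ t, (ck t * g (x - t) - ck t * g (y - t))‖ ≤
      ∫ t, ((Metric.ball x 2).indicator (fun t => ‖ck t‖ * B) t +
        (Metric.ball y 2).indicator (fun t => ‖ck t‖ * B) t) := by
    refine norm_integral_le_of_norm_le ((hi x).add (hi y)) (Eventually.of_forall fun t => ?_)
    have hx0 : 0 ≤ (Metric.ball x 2).indicator (fun t => ‖ck t‖ * B) t :=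
      Set.indicator_nonneg (fun _ _ => by positivity) t
    have hy0 : 0 ≤ (Metric.ball y 2).indicator (fun t => ‖ck t‖ * B) t :=
      Set.indicator_nonneg (fun _ _ => by positivity) t
    have h2 : ‖ck t * g (x - t) - ck t * g (y - t)‖ ≤ ‖ck t‖ * B := by
      rw [← mul_sub, norm_mul]
      exact mul_le_mul_of_nonneg_left (hB t) (norm_nonneg _)
    by_cases hx : t ∈ Metric.ball x 2
    · rw [Set.indicator_of_mem hx]
      linarith
    · by_cases hy : t ∈ Metric.ball y 2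
      · rw [Set.indicator_of_mem hy]
        linarith
      · rw [Metric.mem_ball, dist_eq_norm, not_lt] at hx hy
        rw [hs (x - t) (by rwa [norm_sub_rev]), hs (y - t) (by rwa [norm_sub_rev])]
        simp only [mul_zero, sub_zero, norm_zero]
        linarith
  refine h1.trans ?_
  rw [integral_add (hi x) (hi y), integral_indicator Metric.isOpen_ball.measurableSet,
    integral_indicator Metric.isOpen_ball.measurableSet, integral_mul_const, integral_mul_const]
  have h2 := mul_le_mul_of_nonneg_right (integral_norm_ck_le x) hB0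
  have h3 := mul_le_mul_of_nonneg_right (integral_norm_ck_le y) hB0
  linarith

/-- the derivative of the Cauchy transform of a `C¹` function with compact support -/
theorem hasFDerivAt_Cau {g : ℂ → ℂ} (hg : ContDiff ℝ 1 g) (hc : HasCompactSupport g) (x : ℂ) :
    ∃ D : ℂ →L[ℝ] ℂ, HasFDerivAt (Cau g) D x ∧ ∀ v, D v = Cau (fun y => fderiv ℝ g y v) x := by
  refine ⟨_, hc.hasFDerivAt_convolution_right (ContinuousLinearMap.mul ℝ ℂ)
    locallyIntegrable_ck hg x, fun v => ?_⟩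
  exact convolution_precompR_apply (ContinuousLinearMap.mul ℝ ℂ) locallyIntegrable_ck
    (hc.fderiv ℝ) (hg.continuous_fderiv (by simp)) x v

/-- the Cauchy-Pompeiu formula -/
theorem Cau_db {g : ℂ → ℂ} (hg : ContDiff ℝ 1 g) (hc : HasCompactSupport g) (x : ℂ) :
    Cau (fun y => fderiv ℝ g y 1 + Complex.I * fderiv ℝ g y Complex.I) x = 2 * g x := by
  have hψ : ContDiff ℝ 1 (fun w : ℂ => g (x - w)) := hg.comp (contDiff_const.sub contDiff_id)
  have hcψ : HasCompactSupport (fun w : ℂ => g (x - w)) :=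
    hc.comp_homeomorph (Homeomorph.subLeft x)
  have h := Vale.Agent.P116.FK.pompeiu hψ hcψ
  have hd : ∀ w v, fderiv ℝ (fun w : ℂ => g (x - w)) w v = - fderiv ℝ g (x - w) v := by
    intro w v
    have h1 : HasFDerivAt (fun w : ℂ => x - w) (-ContinuousLinearMap.id ℝ ℂ) w :=
      (hasFDerivAt_id w).const_sub x
    have h2 := ((hg.differentiable (by simp) (x - w)).hasFDerivAt).comp w h1
    have h3 := h2.fderiv
    simp only [Function.comp_def] at h3
    rw [h3]
    simp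
  simp only [Vale.Agent.P116.FK.db, hd, sub_zero] at h
  rw [Cau_apply]
  have e : ∀ t, ck t * (fderiv ℝ g (x - t) 1 + Complex.I * fderiv ℝ g (x - t) Complex.I) =
      (-(π : ℂ)⁻¹) * (t⁻¹ * (-fderiv ℝ g (x - t) 1 + Complex.I * -fderiv ℝ g (x - t) Complex.I)) := by
    intro t
    unfold ck
    ring
  simp_rw [e]
  rw [integral_const_mul, h]
  have : (π : ℂ) ≠ 0 := by exact_mod_cast Real.pi_ne_zero
  field_simp

end Vale.Agent.P267.H515
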