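import Vale.Agent.P267.H515.HSp

/-! P267 / EG-NN, part 4: the fixed point. helper515. -/

open MeasureTheory Real Set Filter Topology
open scoped ContDiff NNReal ComplexConjugate

noncomputable section

set_option linter.unusedSectionVars false
set_option linter.unusedVariables false
set_option linter.unusedSimpArgs false

namespace Vale.Agent.P267.H515

open Vale.Agent.P272.K.LIN

/-! ### an abstract fixed point theorem on a closed set -/

theorem exists_fix {X : Type*} [NormedAddCommGroup X] [CompleteSpace X] (base : X) (Ψ : X → X)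
    (C : Set X) (hC : IsClosed C) (hb : base ∈ C) {ρ : ℝ} (hρ : 0 ≤ ρ)
    (hmap : ∀ x ∈ C, ‖x - base‖ ≤ ρ → base + Ψ x ∈ C)
    (hbd : ∀ x, ‖x - base‖ ≤ ρ → ‖Ψ x‖ ≤ ρ)
    (hlip : ∀ x y, ‖x - base‖ ≤ ρ → ‖y - base‖ ≤ ρ → ‖Ψ x - Ψ y‖ ≤ 1 / 2 * ‖x - y‖) :
    ∃ x ∈ C, ‖x - base‖ ≤ ρ ∧ x = base + Ψ x := by
  set s : Set X := C ∩ Metric.closedBall base ρ with hs
  have hsc : IsComplete s := (hC.inter Metric.isClosed_closedBall).isComplete
  have hsf : MapsTo (fun x => base + Ψ x) s s := by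
    intro x hx
    have h1 : ‖x - base‖ ≤ ρ := by
      have := hx.2
      rwa [mem_closedBall_iff_norm] at this
    refine ⟨hmap x hx.1 h1, ?_⟩
    rw [mem_closedBall_iff_norm, add_sub_cancel_left]
    exact hbd x h1
  have hf : ContractingWith (1 / 2 : ℝ≥0) (hsf.restrict (fun x => base + Ψ x) s s) := by
    refine ⟨by
      rw [← NNReal.coe_lt_coe]
      norm_num, ?_⟩
    refine LipschitzWith.of_dist_le_mul fun x y => ?_
    have h1 : ‖(x : X) - base‖ ≤ ρ := by
      have := x.2.2
      rwa [mem_closedBall_iff_norm] at this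
    have h2 : ‖(y : X) - base‖ ≤ ρ := by
      have := y.2.2
      rwa [mem_closedBall_iff_norm] at this
    have h3 := hlip x y h1 h2
    rw [Subtype.dist_eq, Subtype.dist_eq, dist_eq_norm, dist_eq_norm]
    show ‖(base + Ψ x) - (base + Ψ y)‖ ≤ _
    rw [add_sub_add_left_eq_sub]
    refine h3.trans (le_of_eq ?_)
    norm_num
  have hbs : base ∈ s := ⟨hb, by simpa using hρ⟩
  obtain ⟨x, hx, hfx, -⟩ := ContractingWith.exists_fixedPoint' hsc hsf hf hbs (edist_ne_top _ _)
  have h1 : ‖x - base‖ ≤ ρ := by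
    have := hx.2
    rwa [mem_closedBall_iff_norm] at this
  exact ⟨x, hx.1, h1, hfx.symm⟩

/-! ### derivative relations are closed -/

theorem D2_iff (f p r : H) : D2 f p r ↔ ∀ z a b,
    ‖f z b - f z a - (p z a * (b - a) + r z a * conj (b - a))‖ ≤
      2 * (‖p‖ + ‖r‖) * ‖b - a‖ ^ (1 / 2 : ℝ) * ‖b - a‖ := by
  constructor
  · intro h z a b
    have hN : ∀ q : H, ‖q‖ ≤ ‖p‖ + ‖r‖ → ∀ x y, ‖q z x - q z y‖ ≤
        (‖p‖ + ‖r‖) * ‖x - y‖ ^ (1 / 2 : ℝ) := by
      intro q hq x y
      refine (Hol.norm_sub_le' (q z) x y).trans ?_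
      exact mul_le_mul_of_nonneg_right ((Hol.norm_apply_le q z).trans hq) (NNReal.coe_nonneg _)
    exact (h z).mv (hN p (by have := norm_nonneg r; linarith))
      (hN r (by have := norm_nonneg p; linarith)) a b
  · intro h z
    exact DF.of_bd (h z)

theorem D1_iff' (f p r : H) : D1 f p r ↔ ∀ z a b,
    ‖f b z - f a z - (p a z * (b - a) + r a z * conj (b - a))‖ ≤
      2 * (‖p‖ + ‖r‖) * ‖b - a‖ ^ (1 / 2 : ℝ) * ‖b - a‖ := by
  constructor
  · intro h z a b
    have hN : ∀ q : H, ‖q‖ ≤ ‖p‖ + ‖r‖ → ∀ x y, ‖q x z - q y z‖ ≤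
        (‖p‖ + ‖r‖) * ‖x - y‖ ^ (1 / 2 : ℝ) := by
      intro q hq x y
      refine ((q x - q y).sup z).trans ((Hol.norm_sub_le' q x y).trans ?_)
      exact mul_le_mul_of_nonneg_right hq (NNReal.coe_nonneg _)
    exact (h z).mv (hN p (by have := norm_nonneg r; linarith))
      (hN r (by have := norm_nonneg p; linarith)) a b
  · intro h z
    exact DF.of_bd (h z)

theorem continuous_ev (a b : ℂ) : Continuous fun f : H => f a b :=
  (Hol.continuous_eval b).comp (Hol.continuous_eval a)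

theorem isClosed_D2 {X : Type*} [TopologicalSpace X] {f p r : X → H} (hf : Continuous f)
    (hp : Continuous p) (hr : Continuous r) : IsClosed {x | D2 (f x) (p x) (r x)} := by
  simp only [D2_iff, ofPred_forall]
  refine isClosed_iInter fun z => isClosed_iInter fun a => isClosed_iInter fun b => ?_
  have h1 : ∀ {g : X → H}, Continuous g → ∀ a b, Continuous fun x => g x a b :=
    fun hg a b => (continuous_ev a b).comp hg
  exact isClosed_le ((((h1 hf z b).sub (h1 hf z a)).sub
    (((h1 hp z a).mul continuous_const).add ((h1 hr z a).mul continuous_const))).norm)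
    (((continuous_const.mul (hp.norm.add hr.norm)).mul continuous_const).mul continuous_const)

theorem isClosed_D1 {X : Type*} [TopologicalSpace X] {f p r : X → H} (hf : Continuous f)
    (hp : Continuous p) (hr : Continuous r) : IsClosed {x | D1 (f x) (p x) (r x)} := by
  simp only [D1_iff', ofPred_forall]
  refine isClosed_iInter fun z => isClosed_iInter fun a => isClosed_iInter fun b => ?_
  have h1 : ∀ {g : X → H}, Continuous g → ∀ a b, Continuous fun x => g x a b :=
    fun hg a b => (continuous_ev a b).comp hg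
  exact isClosed_le ((((h1 hf b z).sub (h1 hf a z)).sub
    (((h1 hp a z).mul continuous_const).add ((h1 hr a z).mul continuous_const))).norm)
    (((continuous_const.mul (hp.norm.add hr.norm)).mul continuous_const).mul continuous_const)

/-! ### rules for `D1`, `D2` -/

section rules
variable {f p r g q s : H}

theorem D1.add (hf : D1 f p r) (hg : D1 g q s) : D1 (f + g) (p + q) (r + s) :=
  fun a => (hf a).add (hg a)
theorem D2.add (hf : D2 f p r) (hg : D2 g q s) : D2 (f + g) (p + q) (r + s) :=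
  fun a => (hf a).add (hg a)
theorem D1.sub (hf : D1 f p r) (hg : D1 g q s) : D1 (f - g) (p - q) (r - s) :=
  fun a => (hf a).sub (hg a)
theorem D2.sub (hf : D2 f p r) (hg : D2 g q s) : D2 (f - g) (p - q) (r - s) :=
  fun a => (hf a).sub (hg a)
theorem D1.neg (hf : D1 f p r) : D1 (-f) (-p) (-r) := fun a => (hf a).neg
theorem D2.neg (hf : D2 f p r) : D2 (-f) (-p) (-r) := fun a => (hf a).neg
theorem D1.mul (hf : D1 f p r) (hg : D1 g q s) : D1 (f * g) (p * g + f * q) (r * g + f * s) :=
  fun a => (hf a).mul (hg a)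
theorem D2.mul (hf : D2 f p r) (hg : D2 g q s) : D2 (f * g) (p * g + f * q) (r * g + f * s) :=
  fun a => (hf a).mul (hg a)
theorem D1.cj (hf : D1 f p r) : D1 (cj f) (cj r) (cj p) := fun a => (hf a).conj
theorem D2.cj (hf : D2 f p r) : D2 (cj f) (cj r) (cj p) := fun a => (hf a).conj

end rules

theorem D1_zero : D1 (0 : H) 0 0 := fun a => DF.const 0
theorem D2_zero : D2 (0 : H) 0 0 := fun a => DF.const 0

/-- the operator `T` inverts `∂̄` -/
theorem DF_T (f : Z) : DF (T f) (S f) (hat f) := fun x => hasFDerivAt_T f x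

theorem D2_T (f : H) : D2 (V2 T f) (V2 S f) (V2 hat f) := fun a => DF_T (f a)
theorem D1_T (f : H) : D1 (V1 T f) (V1 S f) (V1 hat f) := fun a => DF_T (swap f a)

/-! ### the linear part -/

section lin
variable {F a b G c d : H}

theorem lin1 (hF : D2 F a b) (hG : D1 G c d) :
    D1 (V1 T F + V2 T G - V1 T (V2 T d)) (V1 S F + V2 T c - V1 S (V2 T d))
      (V1 hat F + V2 T d - V1 hat (V2 T d)) :=
  ((D1_T F).add (hG.V2 CLin_T)).sub (D1_T _)

theorem lin2 (hF : D2 F a b) (hG : D1 G c d) :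
    D2 (V1 T F + V2 T G - V1 T (V2 T d)) (V1 T a + V2 S G - V1 T (V2 S d))
      (V1 T b + V2 hat G - V1 T (V2 hat d)) :=
  ((hF.V1 CLin_T).add (D2_T G)).sub ((D2_T d).V1 CLin_T)

theorem lin3 (hF : D2 F a b) (hG : D1 G c d) :
    D2 (V1 S F + V2 T c - V1 S (V2 T d)) (V1 S a + V2 S c - V1 S (V2 S d))
      (V1 S b + V2 hat c - V1 S (V2 hat d)) :=
  ((hF.V1 CLin_S).add (D2_T c)).sub ((D2_T d).V1 CLin_S)

theorem lin4 (hF : D2 F a b) (hG : D1 G c d) :
    D1 (V1 T a + V2 S G - V1 T (V2 S d)) (V1 S a + V2 S c - V1 S (V2 S d))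
      (V1 hat a + V2 S d - V1 hat (V2 S d)) :=
  ((D1_T a).add (hG.V2 CLin_S)).sub (D1_T _)

end lin

end Vale.Agent.P267.H515
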