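import Vale.Agent.P267.H515.Fix
import Vale.Agent.P267.H399.Wirt

/-! P267 / EG-NN, part 5: the nonlinear map of Nijenhuis-Woolf and its fixed point. helper515. -/

open MeasureTheory Real Set Filter Topology
open scoped ContDiff NNReal ComplexConjugate

noncomputable section

set_option linter.unusedSectionVars false
set_option linter.unusedVariables false
set_option linter.unusedSimpArgs false

namespace Vale.Agent.P267.H515

open Vale.Agent.P272.K.LIN
open Vale.Agent.P267.FL (dz dzb C2)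

/-! ### the chain rule -/

theorem DF.comp2 {B : C2 → ℂ} {f p r : Fin 2 → ℂ → ℂ} (hf : ∀ l, DF (f l) (p l) (r l))
    (hB : Differentiable ℝ B) :
    DF (fun x => B (fun l => f l x))
      (fun x => ∑ l, (dz l B (fun l => f l x) * p l x + dzb l B (fun l => f l x) * conj (r l x)))
      (fun x => ∑ l, (dz l B (fun l => f l x) * r l x + dzb l B (fun l => f l x) * conj (p l x))) :=
  fun x => by
  have h1 : HasFDerivAt (fun x => (fun l => f l x : C2))
      (ContinuousLinearMap.pi fun l => cpl (p l x) (r l x)) x :=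
    hasFDerivAt_pi.2 fun l => hf l x
  have h2 := (hB (fun l => f l x)).hasFDerivAt.comp x h1
  refine h2.congr_fderiv ?_
  ext1 v
  rw [ContinuousLinearMap.comp_apply, Vale.Agent.P267.FL.fderiv_eq_wirt, cpl_apply]
  simp only [ContinuousLinearMap.coe_pi', cpl_apply, smul_eq_mul, Fin.sum_univ_two, map_add,
    map_mul, Complex.conj_conj]
  ring

/-! ### the data -/

/-- composition operator with bounds on the ball of radius `R` -/
structure Cmp (R M : ℝ) (B : C2 → ℂ) (c : (Fin 2 → H) → H) : Prop where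
  app : ∀ w z1 z2, c w z1 z2 = B (fun i => w i z1 z2)
  bd : ∀ w, ‖w‖ ≤ R → ‖c w‖ ≤ M
  lip : ∀ w v, ‖w‖ ≤ R → ‖v‖ ≤ R → ‖c w - c v‖ ≤ M * ‖w - v‖

/-- the composition operators belonging to the structure `A` -/
structure Data (R ε : ℝ) (A : Fin 2 → Fin 2 → C2 → ℂ) where
  cA : Fin 2 → Fin 2 → (Fin 2 → H) → H
  cP : Fin 2 → Fin 2 → Fin 2 → (Fin 2 → H) → H
  cR : Fin 2 → Fin 2 → Fin 2 → (Fin 2 → H) → H
  hA : ∀ i j, Cmp R ε (A i j) (cA i j)
  hP : ∀ l i j, Cmp R ε (dz l (A i j)) (cP l i j)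
  hR : ∀ l i j, Cmp R ε (dzb l (A i j)) (cR l i j)
  diff : ∀ i j, Differentiable ℝ (A i j)

/-- tuples: for each component `j` of the map, the function and its derivatives
`w, ∂₁w, ∂̄₁w, ∂₂w, ∂̄₂w, ∂₁∂₂w, ∂̄₂∂₁w, ∂̄₁∂₂w`. -/
abbrev X : Type := Fin 2 → Fin 8 → H

/-- the function part -/
def wof (x : X) : Fin 2 → H := fun l => x l 0

theorem norm_coord_le (x : X) (j : Fin 2) (i : Fin 8) : ‖x j i‖ ≤ ‖x‖ :=
  (norm_le_pi_norm (x j) i).trans (norm_le_pi_norm x j)

theorem norm_wof_le (x : X) : ‖wof x‖ ≤ ‖x‖ :=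
  (pi_norm_le_iff_of_nonneg (norm_nonneg _)).2 fun l => norm_coord_le x l 0

theorem norm_mulH (f g : H) : ‖f * g‖ ≤ ‖f‖ * ‖g‖ := norm_mul_le f g

/-- bounded and Lipschitz on the ball of radius `R` -/
structure LB (R K : ℝ) (F : X → H) : Prop where
  bd : ∀ x, ‖x‖ ≤ R → ‖F x‖ ≤ K
  lip : ∀ x y, ‖x‖ ≤ R → ‖y‖ ≤ R → ‖F x - F y‖ ≤ K * ‖x - y‖

namespace LB
variable {R K L : ℝ} {F G : X → H}

theorem mono (hF : LB R K F) (h : K ≤ L) : LB R L F :=
  ⟨fun x hx => (hF.bd x hx).trans h, fun x y hx hy => (hF.lip x y hx hy).trans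
    (mul_le_mul_of_nonneg_right h (norm_nonneg _))⟩

theorem add (hF : LB R K F) (hG : LB R L G) : LB R (K + L) (fun x => F x + G x) :=
  ⟨fun x hx => (norm_add_le _ _).trans (add_le_add (hF.bd x hx) (hG.bd x hx)), fun x y hx hy => by
    rw [add_sub_add_comm, add_mul]
    exact (norm_add_le _ _).trans (add_le_add (hF.lip x y hx hy) (hG.lip x y hx hy))⟩

theorem sub (hF : LB R K F) (hG : LB R L G) : LB R (K + L) (fun x => F x - G x) :=
  ⟨fun x hx => (norm_sub_le _ _).trans (add_le_add (hF.bd x hx) (hG.bd x hx)), fun x y hx hy => by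
    rw [sub_sub_sub_comm, add_mul]
    exact (norm_sub_le _ _).trans (add_le_add (hF.lip x y hx hy) (hG.lip x y hx hy))⟩

theorem neg (hF : LB R K F) : LB R K (fun x => -F x) :=
  ⟨fun x hx => by rw [norm_neg]; exact hF.bd x hx, fun x y hx hy => by
    rw [neg_sub_neg, norm_sub_rev]
    exact hF.lip x y hx hy⟩

theorem mul (hF : LB R K F) (hG : LB R L G) (hK : 0 ≤ K) (hL : 0 ≤ L) :
    LB R (2 * K * L) (fun x => F x * G x) :=
  ⟨fun x hx => by
    have h1 := mul_le_mul (hF.bd x hx) (hG.bd x hx) (norm_nonneg _) hK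
    have h2 : 0 ≤ K * L := mul_nonneg hK hL
    refine (norm_mulH _ _).trans ?_
    linarith, fun x y hx hy => by
    have e : F x * G x - F y * G y = (F x - F y) * G x + F y * (G x - G y) := by ring
    rw [e]
    refine (norm_add_le _ _).trans ?_
    have h1 : ‖(F x - F y) * G x‖ ≤ K * ‖x - y‖ * L :=
      (norm_mulH _ _).trans (mul_le_mul (hF.lip x y hx hy) (hG.bd x hx) (norm_nonneg _)
        (mul_nonneg hK (norm_nonneg _)))
    have h2 : ‖F y * (G x - G y)‖ ≤ K * (L * ‖x - y‖) :=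
      (norm_mulH _ _).trans (mul_le_mul (hF.bd y hy) (hG.lip x y hx hy) (norm_nonneg _) hK)
    linarith⟩

theorem clm (T : H →L[ℝ] H) (hF : LB R K F) : LB R (‖T‖ * K) (fun x => T (F x)) :=
  ⟨fun x hx => (T.le_opNorm _).trans (mul_le_mul_of_nonneg_left (hF.bd x hx) (norm_nonneg _)),
    fun x y hx hy => by
    rw [← map_sub, mul_assoc]
    exact (T.le_opNorm _).trans (mul_le_mul_of_nonneg_left (hF.lip x y hx hy) (norm_nonneg _))⟩

theorem sum2 {F : Fin 2 → X → H} (hF : ∀ i, LB R K (F i)) : LB R (2 * K) (fun x => ∑ i, F i x) := by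
  simp only [Fin.sum_univ_two, two_mul]
  exact (hF 0).add (hF 1)

theorem coord (R : ℝ) (j : Fin 2) (i : Fin 8) : LB R (max R 1) (fun x => x j i) :=
  ⟨fun x hx => ((norm_coord_le x j i).trans hx).trans (le_max_left _ _), fun x y hx hy => by
    refine (norm_coord_le (x - y) j i).trans ?_
    exact le_mul_of_one_le_left (norm_nonneg _) (le_max_right _ _)⟩

theorem cmp {B : C2 → ℂ} {c : (Fin 2 → H) → H} (h : Cmp R K B c) (hK : 0 ≤ K) :
    LB R K (fun x => c (wof x)) :=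
  ⟨fun x hx => h.bd _ ((norm_wof_le x).trans hx), fun x y hx hy =>
    (h.lip _ _ ((norm_wof_le x).trans hx) ((norm_wof_le y).trans hy)).trans
      (mul_le_mul_of_nonneg_left (norm_wof_le (x - y)) hK)⟩

end LB

/-! ### the nonlinear terms -/

section terms
variable {R ε : ℝ} {A : Fin 2 → Fin 2 → C2 → ℂ} (D : Data R ε A)

/-- `Q_j = -∑ A_ij(w) conj(p_i)`, `p = x · k` -/
def QQ (k : Fin 8) (x : X) (j : Fin 2) : H := -∑ i, D.cA i j (wof x) * cj (x i k)

/-- the derivatives of `A_ij(w)` -/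
def dA (a b : Fin 8) (x : X) (i j : Fin 2) : H :=
  ∑ l, (D.cP l i j (wof x) * x l a + D.cR l i j (wof x) * cj (x l b))

/-- the derivatives of `Q_j` -/
def dQ (a b k e : Fin 8) (x : X) (j : Fin 2) : H :=
  -∑ i, (dA D a b x i j * cj (x i k) + D.cA i j (wof x) * cj (x i e))

/-- the constant in the estimates -/
def kR (R : ℝ) : ℝ := 2 * (2 * (2 * (2 * max R 1 + 2 * (‖cj‖ * max R 1))) * (‖cj‖ * max R 1) +
  2 * (‖cj‖ * max R 1))

theorem LB_QQ (hε : 0 ≤ ε) (k : Fin 8) (j : Fin 2) :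
    LB R (kR R * ε) (fun x => QQ D k x j) := by
  have hm : 0 < max R 1 := lt_of_lt_of_le one_pos (le_max_right _ _)
  have hc : 0 ≤ ‖cj‖ * max R 1 := by positivity
  have h1 : ∀ i, LB R (2 * ε * (‖cj‖ * max R 1)) (fun x => D.cA i j (wof x) * cj (x i k)) :=
    fun i => (LB.cmp (D.hA i j) hε).mul (LB.clm cj (LB.coord R i k)) hε hc
  refine (LB.sum2 h1).neg.mono ?_
  unfold kR
  have : 0 ≤ 2 * (2 * (2 * max R 1 + 2 * (‖cj‖ * max R 1))) * (‖cj‖ * max R 1) * ε := by positivity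
  nlinarith

theorem LB_dA (hε : 0 ≤ ε) (a b : Fin 8) (i j : Fin 2) :
    LB R (2 * (2 * max R 1 + 2 * (‖cj‖ * max R 1)) * ε) (fun x => dA D a b x i j) := by
  have hm : 0 < max R 1 := lt_of_lt_of_le one_pos (le_max_right _ _)
  have hc : 0 ≤ ‖cj‖ * max R 1 := by positivity
  have h1 : ∀ l, LB R (2 * ε * max R 1 + 2 * ε * (‖cj‖ * max R 1))
      (fun x => D.cP l i j (wof x) * x l a + D.cR l i j (wof x) * cj (x l b)) := fun l =>
    ((LB.cmp (D.hP l i j) hε).mul (LB.coord R l a) hε hm.le).add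
      ((LB.cmp (D.hR l i j) hε).mul (LB.clm cj (LB.coord R l b)) hε hc)
  refine (LB.sum2 h1).mono (le_of_eq ?_)
  ring

theorem LB_dQ (hε : 0 ≤ ε) (a b k e : Fin 8) (j : Fin 2) :
    LB R (kR R * ε) (fun x => dQ D a b k e x j) := by
  have hm : 0 < max R 1 := lt_of_lt_of_le one_pos (le_max_right _ _)
  have hc : 0 ≤ ‖cj‖ * max R 1 := by positivity
  have h1 : ∀ i, LB R (2 * (2 * (2 * max R 1 + 2 * (‖cj‖ * max R 1)) * ε) * (‖cj‖ * max R 1) +
      2 * ε * (‖cj‖ * max R 1))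
      (fun x => dA D a b x i j * cj (x i k) + D.cA i j (wof x) * cj (x i e)) := fun i =>
    ((LB_dA D hε a b i j).mul (LB.clm cj (LB.coord R i k)) (by positivity) hc).add
      ((LB.cmp (D.hA i j) hε).mul (LB.clm cj (LB.coord R i e)) hε hc)
  refine (LB.sum2 h1).neg.mono (le_of_eq ?_)
  unfold kR
  ring

end terms

/-! ### consistency -/

/-- the derivative relations -/
def Cons (x : X) : Prop := ∀ j, D1 (x j 0) (x j 1) (x j 2) ∧ D2 (x j 0) (x j 3) (x j 4) ∧
  D2 (x j 1) (x j 5) (x j 6) ∧ D1 (x j 3) (x j 5) (x j 7)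

theorem isClosed_Cons : IsClosed {x : X | Cons x} := by
  have hc : ∀ (j : Fin 2) (i : Fin 8), Continuous fun x : X => x j i := fun j i =>
    (continuous_apply i).comp (continuous_apply j)
  have : {x : X | Cons x} = ⋂ j, ({x : X | D1 (x j 0) (x j 1) (x j 2)} ∩
      {x : X | D2 (x j 0) (x j 3) (x j 4)} ∩ {x : X | D2 (x j 1) (x j 5) (x j 6)} ∩
      {x : X | D1 (x j 3) (x j 5) (x j 7)}) := by
    ext x
    simp only [Cons, mem_ofPred_eq, mem_iInter, mem_inter_iff, and_assoc]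
  rw [this]
  exact isClosed_iInter fun j => (((isClosed_D1 (hc j 0) (hc j 1) (hc j 2)).inter
    (isClosed_D2 (hc j 0) (hc j 3) (hc j 4))).inter
    (isClosed_D2 (hc j 1) (hc j 5) (hc j 6))).inter (isClosed_D1 (hc j 3) (hc j 5) (hc j 7))

section cons
variable {R ε : ℝ} {A : Fin 2 → Fin 2 → C2 → ℂ} (D : Data R ε A)

theorem D1_cA {x : X} (hx : Cons x) (i j : Fin 2) :
    D1 (D.cA i j (wof x)) (dA D 1 2 x i j) (dA D 2 1 x i j) := by
  intro z
  have h := DF.comp2 (B := A i j) (f := fun l b => x l 0 b z) (p := fun l b => x l 1 b z)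
    (r := fun l b => x l 2 b z) (fun l => (hx l).1 z) (D.diff i j)
  have e0 : (fun b => A i j (fun l => x l 0 b z)) = fun b => D.cA i j (wof x) b z := by
    funext b
    exact ((D.hA i j).app (wof x) b z).symm
  have hP : ∀ l b, dz l (A i j) (fun l => x l 0 b z) = D.cP l i j (wof x) b z := fun l b =>
    ((D.hP l i j).app (wof x) b z).symm
  have hR : ∀ l b, dzb l (A i j) (fun l => x l 0 b z) = D.cR l i j (wof x) b z := fun l b =>
    ((D.hR l i j).app (wof x) b z).symm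
  simp only [hP, hR] at h
  rw [e0] at h
  convert h using 2 with b b
  · simp [dA, Fin.sum_univ_two]
  · simp [dA, Fin.sum_univ_two]

theorem D2_cA {x : X} (hx : Cons x) (i j : Fin 2) :
    D2 (D.cA i j (wof x)) (dA D 3 4 x i j) (dA D 4 3 x i j) := by
  intro z
  have h := DF.comp2 (B := A i j) (f := fun l b => x l 0 z b) (p := fun l b => x l 3 z b)
    (r := fun l b => x l 4 z b) (fun l => (hx l).2.1 z) (D.diff i j)
  have e0 : (fun b => A i j (fun l => x l 0 z b)) = fun b => D.cA i j (wof x) z b := by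
    funext b
    exact ((D.hA i j).app (wof x) z b).symm
  have hP : ∀ l b, dz l (A i j) (fun l => x l 0 z b) = D.cP l i j (wof x) z b := fun l b =>
    ((D.hP l i j).app (wof x) z b).symm
  have hR : ∀ l b, dzb l (A i j) (fun l => x l 0 z b) = D.cR l i j (wof x) z b := fun l b =>
    ((D.hR l i j).app (wof x) z b).symm
  simp only [hP, hR] at h
  rw [e0] at h
  convert h using 2 with b b
  · simp [dA, Fin.sum_univ_two]
  · simp [dA, Fin.sum_univ_two]

theorem D1_QQ {x : X} (hx : Cons x) (j : Fin 2) :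
    D1 (QQ D 3 x j) (dQ D 1 2 3 7 x j) (dQ D 2 1 3 5 x j) := by
  unfold QQ dQ
  simp only [Fin.sum_univ_two]
  exact (((D1_cA D hx 0 j).mul (hx 0).2.2.2.cj).add ((D1_cA D hx 1 j).mul (hx 1).2.2.2.cj)).neg

theorem D2_QQ {x : X} (hx : Cons x) (j : Fin 2) :
    D2 (QQ D 1 x j) (dQ D 3 4 1 6 x j) (dQ D 4 3 1 5 x j) := by
  unfold QQ dQ
  simp only [Fin.sum_univ_two]
  exact (((D2_cA D hx 0 j).mul (hx 0).2.2.1.cj).add ((D2_cA D hx 1 j).mul (hx 1).2.2.1.cj)).neg

/-- the nonlinear map -/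
def Psi (x : X) : X := fun j =>
  ![V1 T (QQ D 1 x j) + V2 T (QQ D 3 x j) - V1 T (V2 T (dQ D 2 1 3 5 x j)),
    V1 S (QQ D 1 x j) + V2 T (dQ D 1 2 3 7 x j) - V1 S (V2 T (dQ D 2 1 3 5 x j)),
    V1 hat (QQ D 1 x j) + V2 T (dQ D 2 1 3 5 x j) - V1 hat (V2 T (dQ D 2 1 3 5 x j)),
    V1 T (dQ D 3 4 1 6 x j) + V2 S (QQ D 3 x j) - V1 T (V2 S (dQ D 2 1 3 5 x j)),
    V1 T (dQ D 4 3 1 5 x j) + V2 hat (QQ D 3 x j) - V1 T (V2 hat (dQ D 2 1 3 5 x j)),
    V1 S (dQ D 3 4 1 6 x j) + V2 S (dQ D 1 2 3 7 x j) - V1 S (V2 S (dQ D 2 1 3 5 x j)),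
    V1 S (dQ D 4 3 1 5 x j) + V2 hat (dQ D 1 2 3 7 x j) - V1 S (V2 hat (dQ D 2 1 3 5 x j)),
    V1 hat (dQ D 3 4 1 6 x j) + V2 S (dQ D 2 1 3 5 x j) - V1 hat (V2 S (dQ D 2 1 3 5 x j))]

theorem Cons_Psi {x : X} (hx : Cons x) : Cons (Psi D x) := fun j =>
  ⟨lin1 (D2_QQ D hx j) (D1_QQ D hx j), lin2 (D2_QQ D hx j) (D1_QQ D hx j),
    lin3 (D2_QQ D hx j) (D1_QQ D hx j), lin4 (D2_QQ D hx j) (D1_QQ D hx j)⟩

theorem Cons.add {x y : X} (hx : Cons x) (hy : Cons y) : Cons (x + y) := fun j =>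
  ⟨(hx j).1.add (hy j).1, (hx j).2.1.add (hy j).2.1, (hx j).2.2.1.add (hy j).2.2.1,
    (hx j).2.2.2.add (hy j).2.2.2⟩

/-- bound of the norms of the linear operators -/
def nN : ℝ := ‖V1 T‖ + ‖V2 T‖ + ‖V1 S‖ + ‖V2 S‖ + ‖V1 hat‖ + ‖V2 hat‖

/-- bound of the linear part -/
def Lam : ℝ := 2 * nN + nN * nN

theorem nN_nonneg : 0 ≤ nN := by unfold nN; positivity

theorem Lam_nonneg : 0 ≤ Lam := by
  have := nN_nonneg
  unfold Lam
  positivity

theorem LB.entry {K : ℝ} (hK : 0 ≤ K) {V W U Y : H →L[ℝ] H} (hV : ‖V‖ ≤ nN) (hW : ‖W‖ ≤ nN)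
    (hU : ‖U‖ ≤ nN) (hY : ‖Y‖ ≤ nN) {F G E : X → H} (hF : LB R K F) (hG : LB R K G)
    (hE : LB R K E) : LB R (Lam * K) (fun x => V (F x) + W (G x) - U (Y (E x))) := by
  have h1 : LB R (nN * K) (fun x => V (F x)) :=
    (hF.clm V).mono (mul_le_mul_of_nonneg_right hV hK)
  have h2 : LB R (nN * K) (fun x => W (G x)) :=
    (hG.clm W).mono (mul_le_mul_of_nonneg_right hW hK)
  have h3 : LB R (nN * K) (fun x => Y (E x)) :=
    (hE.clm Y).mono (mul_le_mul_of_nonneg_right hY hK)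
  have h4 : LB R (nN * (nN * K)) (fun x => U (Y (E x))) :=
    (h3.clm U).mono (mul_le_mul_of_nonneg_right hU (mul_nonneg nN_nonneg hK))
  refine ((h1.add h2).sub h4).mono (le_of_eq ?_)
  unfold Lam
  ring

theorem LB_Psi (hε : 0 ≤ ε) (j : Fin 2) (i : Fin 8) :
    LB R (Lam * (kR R * ε)) (fun x => Psi D x j i) := by
  have hm : 0 < max R 1 := lt_of_lt_of_le one_pos (le_max_right _ _)
  have hk : 0 ≤ kR R * ε := by unfold kR; positivity
  have n1 : ‖V1 T‖ ≤ nN := by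
    unfold nN
    have := norm_nonneg (V2 T); have := norm_nonneg (V1 S); have := norm_nonneg (V2 S)
    have := norm_nonneg (V1 hat); have := norm_nonneg (V2 hat); linarith
  have n2 : ‖V2 T‖ ≤ nN := by
    unfold nN
    have := norm_nonneg (V1 T); have := norm_nonneg (V1 S); have := norm_nonneg (V2 S)
    have := norm_nonneg (V1 hat); have := norm_nonneg (V2 hat); linarith
  have n3 : ‖V1 S‖ ≤ nN := by
    unfold nN
    have := norm_nonneg (V2 T); have := norm_nonneg (V1 T); have := norm_nonneg (V2 S)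
    have := norm_nonneg (V1 hat); have := norm_nonneg (V2 hat); linarith
  have n4 : ‖V2 S‖ ≤ nN := by
    unfold nN
    have := norm_nonneg (V2 T); have := norm_nonneg (V1 S); have := norm_nonneg (V1 T)
    have := norm_nonneg (V1 hat); have := norm_nonneg (V2 hat); linarith
  have n5 : ‖V1 hat‖ ≤ nN := by
    unfold nN
    have := norm_nonneg (V2 T); have := norm_nonneg (V1 S); have := norm_nonneg (V2 S)
    have := norm_nonneg (V1 T); have := norm_nonneg (V2 hat); linarith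
  have n6 : ‖V2 hat‖ ≤ nN := by
    unfold nN
    have := norm_nonneg (V2 T); have := norm_nonneg (V1 S); have := norm_nonneg (V2 S)
    have := norm_nonneg (V1 hat); have := norm_nonneg (V1 T); linarith
  have q1 := LB_QQ D hε 1 j
  have q3 := LB_QQ D hε 3 j
  have d := LB_dQ D hε 2 1 3 5 j
  have c := LB_dQ D hε 1 2 3 7 j
  have a := LB_dQ D hε 3 4 1 6 j
  have b := LB_dQ D hε 4 3 1 5 j
  fin_cases i
  · exact LB.entry hk n1 n2 n1 n2 q1 q3 d
  · exact LB.entry hk n3 n2 n3 n2 q1 c d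
  · exact LB.entry hk n5 n2 n5 n2 q1 d d
  · exact LB.entry hk n1 n4 n1 n4 a q3 d
  · exact LB.entry hk n1 n6 n1 n6 b q3 d
  · exact LB.entry hk n3 n4 n3 n4 a c d
  · exact LB.entry hk n3 n6 n3 n6 b c d
  · exact LB.entry hk n5 n4 n5 n4 a d d

/-- **The fixed point.** -/
theorem exists_solution (base : X) (hb : Cons base) {ρ : ℝ} (hρ : 0 < ρ)
    (hR : ‖base‖ + ρ ≤ R) (hε : 0 ≤ ε) (h1 : Lam * (kR R * ε) ≤ ρ)
    (h2 : Lam * (kR R * ε) ≤ 1 / 2) :
    ∃ x : X, Cons x ∧ ‖x - base‖ ≤ ρ ∧ x = base + Psi D x := by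
  have hn : ∀ x : X, ‖x - base‖ ≤ ρ → ‖x‖ ≤ R := fun x hx => by
    have : x = base + (x - base) := by abel
    rw [this]
    exact (norm_add_le _ _).trans (by linarith)
  obtain ⟨x, hx, h3, h4⟩ := exists_fix base (Psi D) {x | Cons x} isClosed_Cons hb hρ.le
    (fun x hx _ => hb.add (Cons_Psi D hx))
    (fun x hx => by
      refine (pi_norm_le_iff_of_nonneg hρ.le).2 fun j => (pi_norm_le_iff_of_nonneg hρ.le).2 fun i => ?_
      exact ((LB_Psi D hε j i).bd x (hn x hx)).trans h1)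
    (fun x y hx hy => by
      have h5 : 0 ≤ 1 / 2 * ‖x - y‖ := by positivity
      refine (pi_norm_le_iff_of_nonneg h5).2 fun j => (pi_norm_le_iff_of_nonneg h5).2 fun i => ?_
      exact ((LB_Psi D hε j i).lip x y (hn x hx) (hn y hy)).trans
        (mul_le_mul_of_nonneg_right h2 (norm_nonneg _)))
  exact ⟨x, hx, h3, h4⟩

end cons

end Vale.Agent.P267.H515
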