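import Vale.Agent.P267.H515.Fix2

/-! P267 / EG-NN, part 6: the base point and the vanishing of the error. helper515. -/

open MeasureTheory Real Set Filter Topology
open scoped ContDiff NNReal ComplexConjugate

noncomputable section

set_option linter.unusedSectionVars false
set_option linter.unusedVariables false
set_option linter.unusedSimpArgs false

namespace Vale.Agent.P267.H515

open Vale.Agent.P272.K.LIN
open Vale.Agent.P267.FL (dz dzb C2)

/-! ### the base point -/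

theorem zc_contDiff : ContDiff ℝ ∞ fun z : ℂ => z * chi z := contDiff_id.mul chi_smooth

theorem zc_supp : HasCompactSupport fun z : ℂ => z * chi z := chi_supp.mul_left

/-- the cut-off coordinate -/
def zc : Z := ofSmooth (fun z => z * chi z) (zc_contDiff.of_le (by norm_cast)) zc_supp

/-- its directional derivatives -/
def zd (v : ℂ) : Z := ofSmooth (fun x => fderiv ℝ (fun z : ℂ => z * chi z) x v)
  ((zc_contDiff.fderiv_right (m := 1) (by norm_cast)).clm_apply contDiff_const)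
  (zc_supp.fderiv_apply ℝ v)

/-- `∂` of the cut-off coordinate -/
def zp : Z := mc (1 / 2) (zd 1 - mc Complex.I (zd Complex.I))
/-- `∂̄` of the cut-off coordinate -/
def zr : Z := mc (1 / 2) (zd 1 + mc Complex.I (zd Complex.I))

theorem zc_apply (z : ℂ) : zc z = z * chi z := rfl
theorem zd_apply (v z : ℂ) : zd v z = fderiv ℝ (fun z : ℂ => z * chi z) z v := rfl
theorem zp_apply (z : ℂ) : zp z = (1 / 2) * (zd 1 z - Complex.I * zd Complex.I z) := rfl
theorem zr_apply (z : ℂ) : zr z = (1 / 2) * (zd 1 z + Complex.I * zd Complex.I z) := rfl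

theorem DF_zc : DF zc zp zr := fun x => by
  have h : HasFDerivAt (fun z : ℂ => z * chi z) (fderiv ℝ (fun z : ℂ => z * chi z) x) x :=
    (zc_contDiff.differentiable (by simp) x).hasFDerivAt
  rw [clm_eq_cpl (fderiv ℝ (fun z : ℂ => z * chi z) x)] at h
  exact h

theorem zc_eq {z : ℂ} (h : ‖z‖ ≤ 1) : zc z = z := by rw [zc_apply, chi_one h, mul_one]

theorem zd_eq' (v : ℂ) {z : ℂ} (h : ‖z‖ < 1) : zd v z = v := by
  have h1 : (fun z : ℂ => z * chi z) =ᶠ[𝓝 z] fun z => z := by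
    have : {y : ℂ | ‖y‖ < 1} ∈ 𝓝 z := (isOpen_lt continuous_norm continuous_const).mem_nhds h
    filter_upwards [this] with y hy
    have hy' : ‖y‖ ≤ 1 := le_of_lt hy
    rw [chi_one hy', mul_one]
  rw [zd_apply, h1.fderiv_eq]
  simp

theorem zd_eq (v : ℂ) {z : ℂ} (h : ‖z‖ ≤ 1) : zd v z = v := by
  have h1 : EqOn (fun z => zd v z) (fun _ => v) (Metric.ball (0 : ℂ) 1) := fun y hy =>
    zd_eq' v (by simpa using hy)
  have h2 := h1.closure (zd v).continuous continuous_const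
  rw [closure_ball (0 : ℂ) one_ne_zero] at h2
  exact h2 (by simpa using h)

theorem zp_eq {z : ℂ} (h : ‖z‖ ≤ 1) : zp z = 1 := by
  rw [zp_apply, zd_eq _ h, zd_eq _ h, Complex.I_mul_I]; norm_num

theorem zr_eq {z : ℂ} (h : ‖z‖ ≤ 1) : zr z = 0 := by
  rw [zr_apply, zd_eq _ h, zd_eq _ h, Complex.I_mul_I]; norm_num

/-- functions of the second variable -/
def in2 (g : Z) : H := Hol.const g
/-- functions of the first variable -/
def in1 (g : Z) : H := swap (in2 g)

@[simp] theorem in2_apply (g : Z) (a b : ℂ) : in2 g a b = g b := rfl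
@[simp] theorem in1_apply (g : Z) (a b : ℂ) : in1 g a b = g a := rfl

theorem D1_in1 {f p r : Z} (h : DF f p r) : D1 (in1 f) (in1 p) (in1 r) := fun _ => h
theorem D2_in2 {f p r : Z} (h : DF f p r) : D2 (in2 f) (in2 p) (in2 r) := fun _ => h
theorem D2_in1 (f : Z) : D2 (in1 f) 0 0 := fun a => DF.const (f a)
theorem D1_in2 (f : Z) : D1 (in2 f) 0 0 := fun a => DF.const (f a)

/-- the base point -/
def base : X := ![![in1 zc, in1 zp, in1 zr, 0, 0, 0, 0, 0], ![in2 zc, 0, 0, in2 zp, in2 zr, 0, 0, 0]]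

theorem Cons_base : Cons base := by
  intro j
  fin_cases j
  · exact ⟨D1_in1 DF_zc, D2_in1 _, D2_in1 _, D1_zero⟩
  · exact ⟨D1_in2 _, D2_in2 DF_zc, D2_zero, D1_in2 _⟩

theorem base2 (j : Fin 2) {a : ℂ} (ha : ‖a‖ ≤ 1) (b : ℂ) : base j 2 a b = 0 := by
  fin_cases j
  · exact zr_eq ha
  · rfl

theorem base4 (j : Fin 2) (a : ℂ) {b : ℂ} (hb : ‖b‖ ≤ 1) : base j 4 a b = 0 := by
  fin_cases j
  · rfl
  · exact zr_eq hb

/-! ### the error -/

/-- integrability on `U` -/
def IntOn (A : Fin 2 → Fin 2 → C2 → ℂ) (U : Set C2) : Prop :=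
  ∀ x ∈ U, ∀ j, dzb 0 (A 1 j) x - ∑ k, A 0 k x * dz k (A 1 j) x =
    dzb 1 (A 0 j) x - ∑ k, A 1 k x * dz k (A 0 j) x

section err
variable {R ε : ℝ} {A : Fin 2 → Fin 2 → C2 → ℂ} (D : Data R ε A)

theorem V1_hat_eq (F : H) {a : ℂ} (ha : ‖a‖ ≤ 1) (b : ℂ) : V1 hat F a b = F a b := by
  rw [V1_apply, hat_eq _ ha, swap_apply]

theorem V2_hat_eq (F : H) (a : ℂ) {b : ℂ} (hb : ‖b‖ ≤ 1) : V2 hat F a b = F a b := by
  rw [V2_apply, hat_eq _ hb]

theorem Psi_2 (x : X) (j : Fin 2) : Psi D x j 2 = V1 hat (QQ D 1 x j) + V2 T (dQ D 2 1 3 5 x j) -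
      V1 hat (V2 T (dQ D 2 1 3 5 x j)) := by
  unfold Psi
  simp

theorem Psi_4 (x : X) (j : Fin 2) : Psi D x j 4 = V1 T (dQ D 4 3 1 5 x j) +
      V2 hat (QQ D 3 x j) - V1 T (V2 hat (dQ D 2 1 3 5 x j)) := by
  unfold Psi
  simp

theorem comp_eq {x : X} (hx : x = base + Psi D x) (j : Fin 2) (i : Fin 8) (a b : ℂ) :
    x j i a b = base j i a b + Psi D x j i a b := by
  have h : x j i = base j i + Psi D x j i := congrFun (congrFun hx j) i
  rw [h]
  rfl

theorem eq1 {x : X} (hx : x = base + Psi D x) (j : Fin 2) {a : ℂ} (ha : ‖a‖ ≤ 1) (b : ℂ) :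
    x j 2 a b = QQ D 1 x j a b := by
  rw [comp_eq D hx j 2 a b, base2 j ha, Psi_2]
  simp only [Hol.sub_apply, Hol.add_apply]
  rw [V1_hat_eq _ ha, V1_hat_eq _ ha]
  ring

/-- the error -/
def Er (x : X) (j : Fin 2) : H := x j 4 - QQ D 3 x j

/-- the right hand side in the equation of the error -/
def Rr (x : X) (j : Fin 2) : H := dQ D 4 3 1 5 x j - dQ D 2 1 3 5 x j

theorem eq2 {x : X} (hx : x = base + Psi D x) (j : Fin 2) (a : ℂ) {b : ℂ} (hb : ‖b‖ ≤ 1) :
    Er D x j a b = T (swap (Rr D x j) b) a := by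
  have h1 : swap (V2 hat (dQ D 2 1 3 5 x j)) b = swap (dQ D 2 1 3 5 x j) b := by
    ext a'
    rw [swap_apply, V2_hat_eq _ _ hb, swap_apply]
  have h2 : swap (Rr D x j) b = swap (dQ D 4 3 1 5 x j) b - swap (dQ D 2 1 3 5 x j) b := rfl
  rw [h2, map_sub]
  unfold Er
  simp only [Hol.sub_apply]
  rw [comp_eq D hx j 4 a b, base4 j a hb, Psi_4]
  simp only [Hol.sub_apply, Hol.add_apply]
  rw [V2_hat_eq _ _ hb, V1_apply, V1_apply, h1]
  ring

/-- the algebraic identity for the right hand side -/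
theorem Rr_eq {x : X} (hx : x = base + Psi D x) (j : Fin 2) {a : ℂ} (ha : ‖a‖ ≤ 1) (b : ℂ)
    {U : Set C2} (hA : IntOn A U) (hU : (fun l => x l 0 a b : C2) ∈ U) :
    Rr D x j a b = -∑ i, ∑ l, D.cP l i j (wof x) a b * Er D x l a b * conj (x i 1 a b) := by
  have hint := hA _ hU j
  have e1 : ∀ i, x i 2 a b = -∑ l, D.cA l i (wof x) a b * conj (x l 1 a b) := fun i => by
    rw [eq1 D hx i ha b]
    simp [QQ, Fin.sum_univ_two]
  have e2 : ∀ i, x i 4 a b = -∑ l, D.cA l i (wof x) a b * conj (x l 3 a b) + Er D x i a b :=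
    fun i => by
    simp [QQ, Er, Fin.sum_univ_two]
  have hw : (fun l => x l 0 a b : C2) = fun l => wof x l a b := rfl
  rw [hw] at hint
  simp only [Fin.sum_univ_two, ← (D.hA _ _).app, ← (D.hP _ _ _).app, ← (D.hR _ _ _).app] at hint
  unfold Rr dQ dA
  simp only [Fin.sum_univ_two, Hol.sub_apply, Hol.neg_apply, Hol.add_apply, Hol.mul_apply,
    cj_apply]
  rw [e2 0, e2 1, e1 0, e1 1]
  simp only [Fin.sum_univ_two]
  linear_combination (conj (x 0 1 a b) * conj (x 1 3 a b) - conj (x 0 3 a b) * conj (x 1 1 a b)) * hint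

end err

end Vale.Agent.P267.H515
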