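import Vale.Agent.P267.H515.Fix3

/-! P267 / EG-NN, part 7: the error vanishes; the solution of the Nijenhuis-Woolf system on the
bidisc. helper515. -/

open MeasureTheory Real Set Filter Topology
open scoped ContDiff NNReal ComplexConjugate

noncomputable section

set_option linter.unusedSectionVars false
set_option linter.unusedVariables false
set_option linter.unusedSimpArgs false

namespace Vale.Agent.P267.H515

open Vale.Agent.P272.K.LIN
open Vale.Agent.P267.FL (dz dzb C2)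

theorem norm_ev_le (f : H) (a b : ℂ) : ‖f a b‖ ≤ ‖f‖ :=
  ((f a).sup b).trans (Hol.norm_apply_le f a)

section err
variable {R ε : ℝ} {A : Fin 2 → Fin 2 → C2 → ℂ} (D : Data R ε A)

theorem Rr_bound {x : X} (hx : x = base + Psi D x) (hxR : ‖x‖ ≤ R) (hε : 0 ≤ ε) (j : Fin 2)
    {a : ℂ} (ha : ‖a‖ ≤ 1) (b : ℂ) {U : Set C2} (hA : IntOn A U)
    (hU : (fun l => x l 0 a b : C2) ∈ U) {M : ℝ} (hM : ∀ l, ‖Er D x l a b‖ ≤ M) :
    ‖Rr D x j a b‖ ≤ 4 * ε * R * M := by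
  have hM0 : 0 ≤ M := (norm_nonneg _).trans (hM 0)
  have hR0 : 0 ≤ R := (norm_nonneg _).trans hxR
  rw [Rr_eq D hx j ha b hA hU, norm_neg]
  have h1 : ∀ i l, ‖D.cP l i j (wof x) a b * Er D x l a b * conj (x i 1 a b)‖ ≤ ε * M * R := by
    intro i l
    rw [norm_mul, norm_mul, RCLike.norm_conj]
    have h2 : ‖D.cP l i j (wof x) a b‖ ≤ ε :=
      (norm_ev_le _ a b).trans ((D.hP l i j).bd _ ((norm_wof_le x).trans hxR))
    have h3 : ‖x i 1 a b‖ ≤ R := (norm_ev_le _ a b).trans ((norm_coord_le x i 1).trans hxR)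
    exact mul_le_mul (mul_le_mul h2 (hM l) (norm_nonneg _) hε) h3 (norm_nonneg _) (by positivity)
  simp only [Fin.sum_univ_two]
  refine (norm_add_le _ _).trans ?_
  refine (add_le_add (norm_add_le _ _) (norm_add_le _ _)).trans ?_
  have := h1 0 0; have := h1 0 1; have := h1 1 0; have := h1 1 1
  linarith

theorem Er_half {x : X} (hx : x = base + Psi D x) (hxR : ‖x‖ ≤ R) (hε : 0 ≤ ε)
    {U : Set C2} (hA : IntOn A U)
    (hU : ∀ a b : ℂ, ‖a‖ ≤ 1 → ‖b‖ ≤ 1 → (fun l => x l 0 a b : C2) ∈ U)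
    (hs : tC * (4 * ε * R) ≤ 1 / 2) {M : ℝ}
    (hM : ∀ a b : ℂ, ‖a‖ ≤ 1 → ‖b‖ ≤ 1 → ∀ l, ‖Er D x l a b‖ ≤ M) :
    ∀ a b : ℂ, ‖a‖ ≤ 1 → ‖b‖ ≤ 1 → ∀ l, ‖Er D x l a b‖ ≤ 1 / 2 * M := by
  intro a b ha hb l
  have hM0 : 0 ≤ M := (norm_nonneg _).trans (hM a b ha hb 0)
  rw [eq2 D hx l a hb]
  have h := T_sup (swap (Rr D x l) b) (A := 4 * ε * R * M) (fun a' ha' =>
    Rr_bound D hx hxR hε l ha' b hA (hU a' b ha' hb) (fun l => hM a' b ha' hb l)) a
  refine h.trans ?_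
  have := mul_le_mul_of_nonneg_right hs hM0
  linarith

theorem Er_zero {x : X} (hx : x = base + Psi D x) (hxR : ‖x‖ ≤ R) (hε : 0 ≤ ε)
    {U : Set C2} (hA : IntOn A U)
    (hU : ∀ a b : ℂ, ‖a‖ ≤ 1 → ‖b‖ ≤ 1 → (fun l => x l 0 a b : C2) ∈ U)
    (hs : tC * (4 * ε * R) ≤ 1 / 2) {a b : ℂ} (ha : ‖a‖ ≤ 1) (hb : ‖b‖ ≤ 1) (l : Fin 2) :
    Er D x l a b = 0 := by
  set M : ℝ := ‖Er D x 0‖ + ‖Er D x 1‖ with hMdef
  have h : ∀ n : ℕ, ∀ a b : ℂ, ‖a‖ ≤ 1 → ‖b‖ ≤ 1 → ∀ l, ‖Er D x l a b‖ ≤ (1 / 2) ^ n * M := by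
    intro n
    induction n with
    | zero =>
      intro a b _ _ l
      rw [pow_zero, one_mul]
      refine (norm_ev_le _ a b).trans ?_
      have h0 := norm_nonneg (Er D x 0)
      have h1 := norm_nonneg (Er D x 1)
      fin_cases l
      · show ‖Er D x 0‖ ≤ M
        linarith
      · show ‖Er D x 1‖ ≤ M
        linarith
    | succ n ih =>
      have := Er_half D hx hxR hε hA hU hs ih
      intro a b ha hb l
      refine (this a b ha hb l).trans (le_of_eq ?_)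
      rw [pow_succ]; ring
  have h1 : Tendsto (fun n : ℕ => (1 / 2 : ℝ) ^ n * M) atTop (𝓝 0) := by
    have := (tendsto_pow_atTop_nhds_zero_of_lt_one (by norm_num : (0 : ℝ) ≤ 1 / 2)
      (by norm_num)).mul_const M
    simpa using this
  have h2 : ‖Er D x l a b‖ ≤ 0 := ge_of_tendsto' h1 fun n => h n a b ha hb l
  exact norm_le_zero_iff.1 h2

end err

/-! ### functions of two variables as functions on `ℂ²` -/

theorem continuous_two (f : H) : Continuous fun z : C2 => f (z 0) (z 1) := by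
  rw [continuous_iff_continuousAt]
  intro z
  rw [ContinuousAt, tendsto_iff_norm_sub_tendsto_zero]
  have h1 : ∀ z' : C2, ‖f (z' 0) (z' 1) - f (z 0) (z 1)‖ ≤
      ‖f‖ * ‖z' 0 - z 0‖ ^ (1 / 2 : ℝ) + ‖f‖ * ‖z' 1 - z 1‖ ^ (1 / 2 : ℝ) := by
    intro z'
    have e : f (z' 0) (z' 1) - f (z 0) (z 1) =
        (f (z' 0) - f (z 0)) (z' 1) + (f (z 0) (z' 1) - f (z 0) (z 1)) := by
      simp only [Hol.sub_apply]; ring
    rw [e]
    refine (norm_add_le _ _).trans (add_le_add ?_ ?_)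
    · exact ((f (z' 0) - f (z 0)).sup _).trans (Hol.norm_sub_le' f _ _)
    · exact ((f (z 0)).hol _ _).trans (mul_le_mul_of_nonneg_right (Hol.norm_apply_le f _)
        (by positivity))
  refine squeeze_zero (fun _ => norm_nonneg _) h1 ?_
  have h2 : Continuous fun z' : C2 => ‖f‖ * ‖z' 0 - z 0‖ ^ (1 / 2 : ℝ) +
      ‖f‖ * ‖z' 1 - z 1‖ ^ (1 / 2 : ℝ) := by
    have h3 : ∀ i : Fin 2, Continuous fun z' : C2 => ‖z' i - z i‖ ^ (1 / 2 : ℝ) := fun i =>
      (((continuous_apply i).sub continuous_const).norm).rpow_const fun _ => Or.inr (by norm_num)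
    exact (continuous_const.mul (h3 0)).add (continuous_const.mul (h3 1))
  have h4 := h2.tendsto z
  have h5 : (0 : ℝ) ^ (1 / 2 : ℝ) = 0 := Real.zero_rpow (by norm_num)
  simp only [sub_self, norm_zero, h5, mul_zero, add_zero] at h4
  exact h4

/-- the derivative of a function of two variables -/
def der2 (p1 r1 p2 r2 : H) (z : C2) : C2 →L[ℝ] ℂ :=
  (cpl (p1 (z 0) (z 1)) (r1 (z 0) (z 1))).comp (ContinuousLinearMap.proj 0) +
    (cpl (p2 (z 0) (z 1)) (r2 (z 0) (z 1))).comp (ContinuousLinearMap.proj 1)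

theorem der2_apply (p1 r1 p2 r2 : H) (z v : C2) : der2 p1 r1 p2 r2 z v =
    (p1 (z 0) (z 1) * v 0 + r1 (z 0) (z 1) * conj (v 0)) +
      (p2 (z 0) (z 1) * v 1 + r2 (z 0) (z 1) * conj (v 1)) := rfl

theorem hasFDerivAt_of_bd' {E V : Type*} [NormedAddCommGroup E] [NormedSpace ℝ E]
    [NormedAddCommGroup V] [NormedSpace ℝ V] {f : E → V}
    {L : E →L[ℝ] V} {a : E} {C : ℝ}
    (h : ∀ b, ‖f b - f a - L (b - a)‖ ≤ C * ‖b - a‖ ^ (1 / 2 : ℝ) * ‖b - a‖) :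
    HasFDerivAt f L a := by
  refine HasFDerivAt.of_isLittleO ?_
  rw [Asymptotics.isLittleO_iff]
  intro c hc
  have h1 : Tendsto (fun b : E => C * ‖b - a‖ ^ (1 / 2 : ℝ)) (𝓝 a) (𝓝 0) := by
    have : Continuous fun b : E => C * ‖b - a‖ ^ (1 / 2 : ℝ) :=
      continuous_const.mul ((continuous_id.sub continuous_const).norm.rpow_const
        fun _ => Or.inr (by norm_num))
    have h2 := this.tendsto a
    simpa using h2
  filter_upwards [h1.eventually (gt_mem_nhds hc)] with b hb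
  exact (h b).trans (mul_le_mul_of_nonneg_right hb.le (norm_nonneg _))

theorem hasFDerivAt_two {f p1 r1 p2 r2 : H} (h1 : D1 f p1 r1) (h2 : D2 f p2 r2) (z : C2) :
    HasFDerivAt (fun z : C2 => f (z 0) (z 1)) (der2 p1 r1 p2 r2 z) z := by
  set N1 := ‖p1‖ + ‖r1‖ with hN1
  set N2 := ‖p2‖ + ‖r2‖ with hN2
  have hN10 : 0 ≤ N1 := by positivity
  have hN20 : 0 ≤ N2 := by positivity
  refine hasFDerivAt_of_bd' (C := 2 * N1 + N1 + 2 * N2) fun b => ?_
  set h := ‖b - z‖ with hh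
  have hb0 : ‖b 0 - z 0‖ ≤ h := norm_le_pi_norm (b - z) 0
  have hb1 : ‖b 1 - z 1‖ ≤ h := norm_le_pi_norm (b - z) 1
  have hr : ∀ {t : ℝ}, 0 ≤ t → t ≤ h → t ^ (1 / 2 : ℝ) ≤ h ^ (1 / 2 : ℝ) := fun h0 h1 =>
    Real.rpow_le_rpow h0 h1 (by norm_num)
  have hh0 : 0 ≤ h := norm_nonneg _
  have hhr : 0 ≤ h ^ (1 / 2 : ℝ) := by positivity
  have e : f (b 0) (b 1) - f (z 0) (z 1) - der2 p1 r1 p2 r2 z (b - z) =
      (f (b 0) (b 1) - f (z 0) (b 1) -
        (p1 (z 0) (b 1) * (b 0 - z 0) + r1 (z 0) (b 1) * conj (b 0 - z 0))) +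
      ((p1 (z 0) (b 1) - p1 (z 0) (z 1)) * (b 0 - z 0) +
        (r1 (z 0) (b 1) - r1 (z 0) (z 1)) * conj (b 0 - z 0)) +
      (f (z 0) (b 1) - f (z 0) (z 1) -
        (p2 (z 0) (z 1) * (b 1 - z 1) + r2 (z 0) (z 1) * conj (b 1 - z 1))) := by
    rw [der2_apply]
    simp only [Pi.sub_apply]
    ring
  rw [e]
  have t1 : ‖f (b 0) (b 1) - f (z 0) (b 1) -
        (p1 (z 0) (b 1) * (b 0 - z 0) + r1 (z 0) (b 1) * conj (b 0 - z 0))‖ ≤
      2 * N1 * h ^ (1 / 2 : ℝ) * h := by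
    refine ((D1_iff' f p1 r1).1 h1 (b 1) (z 0) (b 0)).trans ?_
    exact mul_le_mul (mul_le_mul_of_nonneg_left (hr (norm_nonneg _) hb0) (by positivity)) hb0
      (norm_nonneg _) (by positivity)
  have t3 : ‖f (z 0) (b 1) - f (z 0) (z 1) -
        (p2 (z 0) (z 1) * (b 1 - z 1) + r2 (z 0) (z 1) * conj (b 1 - z 1))‖ ≤
      2 * N2 * h ^ (1 / 2 : ℝ) * h := by
    refine ((D2_iff f p2 r2).1 h2 (z 0) (z 1) (b 1)).trans ?_
    exact mul_le_mul (mul_le_mul_of_nonneg_left (hr (norm_nonneg _) hb1) (by positivity)) hb1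
      (norm_nonneg _) (by positivity)
  have t2 : ‖(p1 (z 0) (b 1) - p1 (z 0) (z 1)) * (b 0 - z 0) +
        (r1 (z 0) (b 1) - r1 (z 0) (z 1)) * conj (b 0 - z 0)‖ ≤ N1 * h ^ (1 / 2 : ℝ) * h := by
    have hq : ∀ q : H, ‖q (z 0) (b 1) - q (z 0) (z 1)‖ ≤ ‖q‖ * h ^ (1 / 2 : ℝ) := fun q =>
      ((q (z 0)).hol _ _).trans (mul_le_mul (Hol.norm_apply_le q _) (hr (norm_nonneg _) hb1)
        (by positivity) (norm_nonneg _))
    refine (norm_add_le _ _).trans ?_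
    rw [norm_mul, norm_mul, RCLike.norm_conj]
    have := mul_le_mul (hq p1) hb0 (norm_nonneg _) (by positivity)
    have := mul_le_mul (hq r1) hb0 (norm_nonneg _) (by positivity)
    rw [hN1]
    linarith
  refine (norm_add₃_le).trans ?_
  linarith

theorem continuous_der2 (p1 r1 p2 r2 : H) : Continuous (der2 p1 r1 p2 r2) := by
  have hc : ∀ q s : H, Continuous fun z : C2 => cpl (q (z 0) (z 1)) (s (z 0) (z 1)) := by
    intro q s
    have h1 : Continuous fun z : C2 => ContinuousLinearMap.mul ℝ ℂ (q (z 0) (z 1)) :=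
      (ContinuousLinearMap.mul ℝ ℂ).continuous.comp (continuous_two q)
    have h2 : Continuous fun z : C2 => (ContinuousLinearMap.mul ℝ ℂ (s (z 0) (z 1))).comp
        Complex.conjCLE.toContinuousLinearMap :=
      ((ContinuousLinearMap.mul ℝ ℂ).continuous.comp (continuous_two s)).clm_comp continuous_const
    exact h1.add h2
  exact ((hc p1 r1).clm_comp continuous_const).add ((hc p2 r2).clm_comp continuous_const)

theorem contDiff_two {f p1 r1 p2 r2 : H} (h1 : D1 f p1 r1) (h2 : D2 f p2 r2) :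
    ContDiff ℝ 1 fun z : C2 => f (z 0) (z 1) := by
  rw [contDiff_one_iff_fderiv]
  refine ⟨fun z => (hasFDerivAt_two h1 h2 z).differentiableAt, ?_⟩
  have : fderiv ℝ (fun z : C2 => f (z 0) (z 1)) = der2 p1 r1 p2 r2 :=
    funext fun z => (hasFDerivAt_two h1 h2 z).fderiv
  rw [this]
  exact continuous_der2 _ _ _ _

theorem dz_two {f p1 r1 p2 r2 : H} (h1 : D1 f p1 r1) (h2 : D2 f p2 r2) (z : C2) :
    dz 0 (fun z : C2 => f (z 0) (z 1)) z = p1 (z 0) (z 1) ∧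
    dzb 0 (fun z : C2 => f (z 0) (z 1)) z = r1 (z 0) (z 1) ∧
    dz 1 (fun z : C2 => f (z 0) (z 1)) z = p2 (z 0) (z 1) ∧
    dzb 1 (fun z : C2 => f (z 0) (z 1)) z = r2 (z 0) (z 1) := by
  unfold dz dzb
  rw [(hasFDerivAt_two h1 h2 z).fderiv]
  simp only [der2_apply, Pi.single_eq_same, smul_eq_mul]
  have e1 : (Pi.single 0 1 : C2) 1 = 0 := rfl
  have e2 : (Pi.single 0 Complex.I : C2) 1 = 0 := rfl
  have e3 : (Pi.single 1 1 : C2) 0 = 0 := rfl
  have e4 : (Pi.single 1 Complex.I : C2) 0 = 0 := rfl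
  rw [e1, e2, e3, e4]
  simp only [map_one, map_zero, mul_zero, mul_one, add_zero, zero_add, Complex.conj_I]
  refine ⟨?_, ?_, ?_, ?_⟩ <;>
  · ring_nf
    rw [Complex.I_sq]
    ring

end Vale.Agent.P267.H515
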