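import Vale.Agent.P267.H515.TS

/-! P267 / EG-NN, part 3: the space `H` of functions of two variables (bounded, Hölder in each
variable, mixed Hölder), partial derivatives, and the operators in each variable. helper515. -/

open MeasureTheory Real Set Filter Topology
open scoped ContDiff NNReal ComplexConjugate

noncomputable section

set_option linter.unusedSectionVars false
set_option linter.unusedVariables false
set_option linter.unusedSimpArgs false

namespace Vale.Agent.P267.H515

open Vale.Agent.P272.K.LIN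

/-! ### derivatives of functions of one variable -/

/-- `p = ∂f` and `r = ∂̄f` -/
def DF (f p r : ℂ → ℂ) : Prop := ∀ x, HasFDerivAt f (cpl (p x) (r x)) x

theorem DF.add {f p r g q s : ℂ → ℂ} (hf : DF f p r) (hg : DF g q s) :
    DF (fun x => f x + g x) (fun x => p x + q x) (fun x => r x + s x) := fun x => by
  refine ((hf x).add (hg x)).congr_fderiv ?_
  ext1 v
  simp only [_root_.add_apply, cpl_apply]
  ring

theorem DF.neg {f p r : ℂ → ℂ} (hf : DF f p r) :
    DF (fun x => -f x) (fun x => -p x) (fun x => -r x) := fun x => by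
  refine ((hf x).neg).congr_fderiv ?_
  ext1 v
  simp only [_root_.neg_apply, cpl_apply]
  ring

theorem DF.sub {f p r g q s : ℂ → ℂ} (hf : DF f p r) (hg : DF g q s) :
    DF (fun x => f x - g x) (fun x => p x - q x) (fun x => r x - s x) := fun x => by
  refine ((hf x).sub (hg x)).congr_fderiv ?_
  ext1 v
  simp only [_root_.sub_apply, cpl_apply]
  ring

theorem DF.mul {f p r g q s : ℂ → ℂ} (hf : DF f p r) (hg : DF g q s) :
    DF (fun x => f x * g x) (fun x => p x * g x + f x * q x) (fun x => r x * g x + f x * s x) :=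
  fun x => by
  refine ((hf x).mul (hg x)).congr_fderiv ?_
  ext1 v
  simp only [_root_.add_apply, _root_.smul_apply, smul_eq_mul, cpl_apply]
  ring

theorem DF.conj {f p r : ℂ → ℂ} (hf : DF f p r) :
    DF (fun x => conj (f x)) (fun x => conj (r x)) (fun x => conj (p x)) := fun x => by
  refine ((Complex.conjCLE.toContinuousLinearMap.hasFDerivAt).comp x (hf x)).congr_fderiv ?_
  ext1 v
  simp only [ContinuousLinearMap.comp_apply, cpl_apply]
  show conj (p x * v + r x * conj v) = _
  rw [map_add, map_mul, map_mul, Complex.conj_conj]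
  ring

theorem DF.const (c : ℂ) : DF (fun _ => c) (fun _ => 0) (fun _ => 0) := fun x => by
  refine (hasFDerivAt_const c x).congr_fderiv ?_
  ext1 v
  simp [cpl_apply]

theorem norm_cpl_le (a b : ℂ) : ‖cpl a b‖ ≤ ‖a‖ + ‖b‖ := by
  refine ContinuousLinearMap.opNorm_le_bound _ (by positivity) fun v => ?_
  rw [cpl_apply]
  refine (norm_add_le _ _).trans ?_
  rw [norm_mul, norm_mul, RCLike.norm_conj]
  exact le_of_eq (by ring)

/-- the mean value inequality -/
theorem DF.mv {f p r : ℂ → ℂ} (hf : DF f p r) {K : ℝ}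
    (hp : ∀ x y, ‖p x - p y‖ ≤ K * ‖x - y‖ ^ (1 / 2 : ℝ))
    (hr : ∀ x y, ‖r x - r y‖ ≤ K * ‖x - y‖ ^ (1 / 2 : ℝ)) (a b : ℂ) :
    ‖f b - f a - (p a * (b - a) + r a * conj (b - a))‖ ≤
      2 * K * ‖b - a‖ ^ (1 / 2 : ℝ) * ‖b - a‖ := by
  have hK : 0 ≤ K := by
    have := (norm_nonneg _).trans (hp 1 0)
    simpa using this
  have h := (convex_closedBall a ‖b - a‖).norm_image_sub_le_of_norm_hasFDerivWithin_le'
    (f := f) (f' := fun x => cpl (p x) (r x)) (C := 2 * K * ‖b - a‖ ^ (1 / 2 : ℝ))
    (φ := cpl (p a) (r a)) (x := a) (y := b) (fun x _ => (hf x).hasFDerivWithinAt)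
    (fun x hx => ?_) (by simp) (by simp [dist_eq_norm])
  · simpa only [cpl_apply] using h
  · have e : cpl (p x) (r x) - cpl (p a) (r a) = cpl (p x - p a) (r x - r a) := by
      ext1 v
      simp only [_root_.sub_apply, cpl_apply]
      ring
    have hx' : ‖x - a‖ ≤ ‖b - a‖ := by rwa [mem_closedBall_iff_norm] at hx
    have h3 : ‖x - a‖ ^ (1 / 2 : ℝ) ≤ ‖b - a‖ ^ (1 / 2 : ℝ) :=
      Real.rpow_le_rpow (norm_nonneg _) hx' (by norm_num)
    have h4 := mul_le_mul_of_nonneg_left h3 hK
    rw [e]
    refine (norm_cpl_le _ _).trans ?_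
    have h1 := hp x a
    have h2 := hr x a
    linarith

theorem hasFDerivAt_of_bd {V : Type*} [NormedAddCommGroup V] [NormedSpace ℝ V] {f : ℂ → V}
    {L : ℂ →L[ℝ] V} {a : ℂ} {C : ℝ}
    (h : ∀ b, ‖f b - f a - L (b - a)‖ ≤ C * ‖b - a‖ ^ (1 / 2 : ℝ) * ‖b - a‖) :
    HasFDerivAt f L a := by
  refine HasFDerivAt.of_isLittleO ?_
  rw [Asymptotics.isLittleO_iff]
  intro c hc
  have h1 : Tendsto (fun b : ℂ => C * ‖b - a‖ ^ (1 / 2 : ℝ)) (𝓝 a) (𝓝 0) := by
    have : Continuous fun b : ℂ => C * ‖b - a‖ ^ (1 / 2 : ℝ) :=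
      continuous_const.mul ((continuous_id.sub continuous_const).norm.rpow_const
        fun _ => Or.inr (by norm_num))
    have h2 := this.tendsto a
    simpa using h2
  filter_upwards [h1.eventually (gt_mem_nhds hc)] with b hb
  exact (h b).trans (mul_le_mul_of_nonneg_right hb.le (norm_nonneg _))

theorem DF.of_bd {f p r : ℂ → ℂ} {C : ℝ} (h : ∀ a b,
    ‖f b - f a - (p a * (b - a) + r a * conj (b - a))‖ ≤ C * ‖b - a‖ ^ (1 / 2 : ℝ) * ‖b - a‖) :
    DF f p r := fun a => hasFDerivAt_of_bd (C := C) fun b => by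
  rw [cpl_apply]; exact h a b

/-! ### the space `H` -/

/-- functions of two variables -/
abbrev H : Type := Hol ww Z

/-- exchange of the variables -/
def swap0 (f : H) : H :=
  ⟨fun a => ⟨fun b => f b a, ⟨‖f‖, fun b => ((f b).sup a).trans (Hol.norm_apply_le f b)⟩,
    ⟨‖f‖, fun b b' => by
      have h1 := (f b - f b').sup a
      have h2 := Hol.norm_sub_le' f b b'
      exact h1.trans h2⟩⟩,
   ⟨‖f‖ + ‖f‖, fun a => Hol.norm_le_of (norm_nonneg _) (norm_nonneg _)
      (fun b => ((f b).sup a).trans (Hol.norm_apply_le f b))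
      fun b b' => ((f b - f b').sup a).trans (Hol.norm_sub_le' f b b')⟩,
   ⟨‖f‖ + ‖f‖, fun a a' => by
      rw [add_mul]
      refine Hol.norm_le_of (by positivity) (by positivity) (fun b => ?_) fun b b' => ?_
      · exact (Hol.norm_sub_le' (f b) a a').trans
          (mul_le_mul_of_nonneg_right (Hol.norm_apply_le f b) (NNReal.coe_nonneg _))
      · have h1 := Hol.norm_sub_le' (f b - f b') a a'
        have h2 := Hol.norm_sub_le' f b b'
        have h3 := mul_le_mul_of_nonneg_right h2 (NNReal.coe_nonneg (ww a a'))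
        have e : (f b a - f b a') - (f b' a - f b' a') = (f b - f b') a - (f b - f b') a' := by
          simp only [Hol.sub_apply]; ring
        show ‖(f b a - f b a') - (f b' a - f b' a')‖ ≤ _
        rw [e]
        refine (h1.trans h3).trans (le_of_eq ?_)
        ring⟩⟩

theorem swap0_apply (f : H) (a b : ℂ) : swap0 f a b = f b a := rfl

/-- exchange of the variables -/
def swap : H →L[ℝ] H :=
  LinearMap.mkContinuous
    { toFun := swap0
      map_add' := fun f g => rfl
      map_smul' := fun c f => rfl } 4 fun f => by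
    have h : ‖swap0 f‖ ≤ (‖f‖ + ‖f‖) + (‖f‖ + ‖f‖) := by
      refine Hol.norm_le_of (by positivity) (by positivity) (fun a => ?_) fun a a' => ?_
      · exact Hol.norm_le_of (norm_nonneg _) (norm_nonneg _)
          (fun b => ((f b).sup a).trans (Hol.norm_apply_le f b))
          fun b b' => ((f b - f b').sup a).trans (Hol.norm_sub_le' f b b')
      · rw [add_mul]
        refine Hol.norm_le_of (by positivity) (by positivity) (fun b => ?_) fun b b' => ?_
        · exact (Hol.norm_sub_le' (f b) a a').trans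
            (mul_le_mul_of_nonneg_right (Hol.norm_apply_le f b) (NNReal.coe_nonneg _))
        · have h1 := Hol.norm_sub_le' (f b - f b') a a'
          have h2 := Hol.norm_sub_le' f b b'
          have h3 := mul_le_mul_of_nonneg_right h2 (NNReal.coe_nonneg (ww a a'))
          have e : (f b a - f b a') - (f b' a - f b' a') = (f b - f b') a - (f b - f b') a' := by
            simp only [Hol.sub_apply]; ring
          show ‖(f b a - f b a') - (f b' a - f b' a')‖ ≤ _
          rw [e]
          refine (h1.trans h3).trans (le_of_eq ?_)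
          ring
    exact h.trans (le_of_eq (by ring))

@[simp] theorem swap_apply (f : H) (a b : ℂ) : swap f a b = f b a := rfl

theorem swap_swap (f : H) : swap (swap f) = f := rfl

/-- the operator `V` in the second variable -/
def V2 (V : Z →L[ℝ] Z) : H →L[ℝ] H := Hol.map V

/-- the operator `V` in the first variable -/
def V1 (V : Z →L[ℝ] Z) : H →L[ℝ] H := swap.comp ((V2 V).comp swap)

theorem V2_apply (V : Z →L[ℝ] Z) (f : H) (a b : ℂ) : V2 V f a b = V (f a) b := rfl
theorem V1_apply (V : Z →L[ℝ] Z) (f : H) (a b : ℂ) : V1 V f a b = V (swap f b) a := rfl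

/-- derivatives in the second variable -/
def D2 (f p r : H) : Prop := ∀ a, DF (f a) (p a) (r a)

/-- derivatives in the first variable -/
def D1 (f p r : H) : Prop := ∀ a, DF (fun b => f b a) (fun b => p b a) (fun b => r b a)

theorem D1_iff (f p r : H) : D1 f p r ↔ D2 (swap f) (swap p) (swap r) := Iff.rfl

/-- complex conjugation -/
def cj : H →L[ℝ] H := Hol.map (Hol.map Complex.conjCLE.toContinuousLinearMap)

@[simp] theorem cj_apply (f : H) (a b : ℂ) : cj f a b = conj (f a b) := rfl

/-- the key estimate: derivatives with values in `Z` -/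
theorem up_bd {f p r : H} (h : D1 f p r) (a b : ℂ) :
    ‖f b - f a - (mc (b - a) (p a) + mc (conj (b - a)) (r a))‖ ≤
      4 * (‖p‖ + ‖r‖) * ‖b - a‖ ^ (1 / 2 : ℝ) * ‖b - a‖ := by
  set N := ‖p‖ + ‖r‖ with hN
  have hpN : ‖p‖ ≤ N := by have := norm_nonneg r; linarith
  have hrN : ‖r‖ ≤ N := by have := norm_nonneg p; linarith
  have hN0 : 0 ≤ N := by positivity
  have h1 : ‖f b - f a - (mc (b - a) (p a) + mc (conj (b - a)) (r a))‖ ≤
      2 * N * ‖b - a‖ ^ (1 / 2 : ℝ) * ‖b - a‖ + 2 * N * ‖b - a‖ ^ (1 / 2 : ℝ) * ‖b - a‖ := by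
    refine Hol.norm_le_of (by positivity) (by positivity) (fun z => ?_) fun z z' => ?_
    · have hb : ∀ q : H, ‖q‖ ≤ N → ∀ x y, ‖q x z - q y z‖ ≤ N * ‖x - y‖ ^ (1 / 2 : ℝ) := by
        intro q hq x y
        refine ((q x - q y).sup z).trans ((Hol.norm_sub_le' q x y).trans ?_)
        exact mul_le_mul_of_nonneg_right hq (NNReal.coe_nonneg _)
      have := (h z).mv (hb p hpN) (hb r hrN) a b
      refine le_trans (le_of_eq ?_) this
      congr 1
      simp only [Hol.sub_apply, Hol.add_apply, mc_apply]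
      ring
    · have hb : ∀ q : H, ‖q‖ ≤ N → ∀ x y, ‖(q x z - q x z') - (q y z - q y z')‖ ≤
          (N * ww z z') * ‖x - y‖ ^ (1 / 2 : ℝ) := by
        intro q hq x y
        have e : (q x z - q x z') - (q y z - q y z') = (q x - q y) z - (q x - q y) z' := by
          simp only [Hol.sub_apply]; ring
        rw [e]
        have h1 := Hol.norm_sub_le' (q x - q y) z z'
        have h2 := Hol.norm_sub_le' q x y
        have h3 : ‖q‖ * (ww x y : ℝ) ≤ N * ww x y :=
          mul_le_mul_of_nonneg_right hq (NNReal.coe_nonneg _)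
        have h4 := mul_le_mul_of_nonneg_right (h2.trans h3) (NNReal.coe_nonneg (ww z z'))
        refine (h1.trans h4).trans (le_of_eq ?_)
        rw [coe_ww x y]
        ring
      have := ((h z).sub (h z')).mv (hb p hpN) (hb r hrN) a b
      refine le_trans (le_of_eq ?_) (this.trans (le_of_eq ?_))
      · congr 1
        simp only [Hol.sub_apply, Hol.add_apply, mc_apply]
        ring
      · ring
  exact h1.trans (le_of_eq (by ring))

/-- the operators in the second variable commute with the derivatives in the first one -/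
theorem D1.V2 {V : Z →L[ℝ] Z} (hV : CLin V) {f p r : H} (h : D1 f p r) :
    D1 (V2 V f) (V2 V p) (V2 V r) := by
  intro z
  refine DF.of_bd (C := ‖V‖ * (4 * (‖p‖ + ‖r‖))) fun a b => ?_
  have h1 := up_bd h a b
  have h2 : ‖V (f b - f a - (mc (b - a) (p a) + mc (conj (b - a)) (r a)))‖ ≤
      ‖V‖ * (4 * (‖p‖ + ‖r‖) * ‖b - a‖ ^ (1 / 2 : ℝ) * ‖b - a‖) :=
    (V.le_opNorm _).trans (mul_le_mul_of_nonneg_left h1 (norm_nonneg _))
  rw [map_sub, map_sub, map_add, hV, hV] at h2
  have h3 := ((V (f b) - V (f a) - (mc (b - a) (V (p a)) + mc (conj (b - a)) (V (r a)))).sup z).trans h2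
  refine le_trans (le_of_eq ?_) (h3.trans (le_of_eq (by ring)))
  congr 1
  simp only [Hol.sub_apply, Hol.add_apply, mc_apply, V2_apply]
  ring

/-- the operators in the first variable commute with the derivatives in the second one -/
theorem D2.V1 {V : Z →L[ℝ] Z} (hV : CLin V) {f p r : H} (h : D2 f p r) :
    D2 (V1 V f) (V1 V p) (V1 V r) :=
  D1.V2 hV (f := swap f) (p := swap p) (r := swap r) h

end Vale.Agent.P267.H515
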