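import Vale.Agent.P267.H515.Fix4

/-! P267 / EG-NN, part 8: Newlander-Nirenberg for small integrable structures on `ℂ²`
(Nijenhuis-Woolf). helper515. -/

open MeasureTheory Real Set Filter Topology
open scoped ContDiff NNReal ComplexConjugate

noncomputable section

set_option linter.unusedSectionVars false
set_option linter.unusedVariables false
set_option linter.unusedSimpArgs false

namespace Vale.Agent.P267.H515

open Vale.Agent.P272.K.LIN
open Vale.Agent.P267.FL (dz dzb C2)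

/-- the result on composition operators that is used -/
def CompHyp : Prop := ∀ R : ℝ, ∃ K : ℝ, 0 < K ∧ ∀ (B : C2 → ℂ) (M : ℝ), ContDiff ℝ 3 B → 0 ≤ M →
  (∀ k : ℕ, k ≤ 3 → ∀ x, ‖iteratedFDeriv ℝ k B x‖ ≤ M) → ∃ c, Cmp R (K * M) B c

/-! ### derivatives of Wirtinger derivatives -/

theorem norm_single (l : Fin 2) (c : ℂ) : ‖(Pi.single l c : C2)‖ = ‖c‖ := by
  fin_cases l
  · refine le_antisymm ((pi_norm_le_iff_of_nonneg (norm_nonneg _)).2 fun i => ?_) ?_
    · fin_cases i <;> simp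
    · have := norm_le_pi_norm (Pi.single (0 : Fin 2) c : C2) 0
      simpa using this
  · refine le_antisymm ((pi_norm_le_iff_of_nonneg (norm_nonneg _)).2 fun i => ?_) ?_
    · fin_cases i <;> simp
    · have := norm_le_pi_norm (Pi.single (1 : Fin 2) c : C2) 1
      simpa using this

/-- the functional giving a Wirtinger derivative -/
def wf (l : Fin 2) (c : ℂ) : (C2 →L[ℝ] ℂ) →L[ℝ] ℂ :=
  (1 / 2 : ℂ) • (ContinuousLinearMap.apply ℝ ℂ (Pi.single l 1 : C2) +
    c • ContinuousLinearMap.apply ℝ ℂ (Pi.single l Complex.I : C2))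

theorem wf_apply (l : Fin 2) (c : ℂ) (L : C2 →L[ℝ] ℂ) :
    wf l c L = (1 / 2 : ℂ) • (L (Pi.single l 1) + c • L (Pi.single l Complex.I)) := rfl

theorem norm_wf_le (l : Fin 2) {c : ℂ} (hc : ‖c‖ ≤ 1) : ‖wf l c‖ ≤ 1 := by
  refine ContinuousLinearMap.opNorm_le_bound _ zero_le_one fun L => ?_
  rw [wf_apply, norm_smul]
  have h1 : ‖L (Pi.single l 1)‖ ≤ ‖L‖ := by
    have := L.le_opNorm (Pi.single l 1)
    rwa [norm_single, norm_one, mul_one] at this
  have h2 : ‖L (Pi.single l Complex.I)‖ ≤ ‖L‖ := by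
    have := L.le_opNorm (Pi.single l Complex.I)
    rwa [norm_single, Complex.norm_I, mul_one] at this
  have h3 : ‖c • L (Pi.single l Complex.I)‖ ≤ ‖L‖ := by
    rw [norm_smul]
    exact (mul_le_mul hc h2 (norm_nonneg _) zero_le_one).trans (le_of_eq (one_mul _))
  have h4 : ‖(1 / 2 : ℂ)‖ = 1 / 2 := by norm_num
  rw [h4]
  have := norm_add_le (L (Pi.single l 1)) (c • L (Pi.single l Complex.I))
  linarith

theorem dz_eq_wf (l : Fin 2) (f : C2 → ℂ) : dz l f = wf l (-Complex.I) ∘ fderiv ℝ f := by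
  funext x
  rw [Function.comp_apply, wf_apply]
  unfold dz
  rw [neg_smul, sub_eq_add_neg]

theorem dzb_eq_wf (l : Fin 2) (f : C2 → ℂ) : dzb l f = wf l Complex.I ∘ fderiv ℝ f := by
  funext x
  rw [Function.comp_apply, wf_apply]
  rfl

theorem contDiff_dz {f : C2 → ℂ} (hf : ContDiff ℝ 4 f) (l : Fin 2) :
    ContDiff ℝ 3 (dz l f) ∧ ContDiff ℝ 3 (dzb l f) := by
  have h : ContDiff ℝ 3 (fderiv ℝ f) := hf.fderiv_right (by norm_num)
  exact ⟨by rw [dz_eq_wf]; exact (wf l _).contDiff.comp h,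
    by rw [dzb_eq_wf]; exact (wf l _).contDiff.comp h⟩

theorem norm_iter_wf {f : C2 → ℂ} (hf : ContDiff ℝ 4 f) (l : Fin 2) {c : ℂ} (hc : ‖c‖ ≤ 1)
    {k : ℕ} (hk : k ≤ 3) (x : C2) :
    ‖iteratedFDeriv ℝ k (wf l c ∘ fderiv ℝ f) x‖ ≤ ‖iteratedFDeriv ℝ (k + 1) f x‖ := by
  have h : ContDiff ℝ 3 (fderiv ℝ f) := hf.fderiv_right (by norm_num)
  have h1 := (wf l c).norm_iteratedFDeriv_comp_left (h.contDiffAt (x := x))
    (by exact_mod_cast hk : (k : WithTop ℕ∞) ≤ 3)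
  refine h1.trans ?_
  rw [norm_iteratedFDeriv_fderiv]
  calc ‖wf l c‖ * _ ≤ 1 * ‖iteratedFDeriv ℝ (k + 1) f x‖ :=
        mul_le_mul_of_nonneg_right (norm_wf_le l hc) (norm_nonneg _)
    _ = _ := one_mul _

/-- the data exist -/
theorem exists_data (hcomp : CompHyp) (R : ℝ) : ∃ K : ℝ, 0 < K ∧
    ∀ (A : Fin 2 → Fin 2 → C2 → ℂ) (η : ℝ), 0 ≤ η → (∀ i j, ContDiff ℝ 4 (A i j)) →
      (∀ i j, ∀ k : ℕ, k ≤ 4 → ∀ x, ‖iteratedFDeriv ℝ k (A i j) x‖ ≤ η) →
      Nonempty (Data R (K * η) A) := by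
  obtain ⟨K, hK, h⟩ := hcomp R
  refine ⟨K, hK, fun A η hη hA hb => ?_⟩
  have h1 : ∀ i j, ∃ c, Cmp R (K * η) (A i j) c := fun i j =>
    h (A i j) η ((hA i j).of_le (by norm_num)) hη fun k hk x => hb i j k (by omega) x
  have h2 : ∀ l i j, ∃ c, Cmp R (K * η) (dz l (A i j)) c := fun l i j =>
    h (dz l (A i j)) η (contDiff_dz (hA i j) l).1 hη fun k hk x => by
      rw [dz_eq_wf]
      exact (norm_iter_wf (hA i j) l (by simp) hk x).trans (hb i j (k + 1) (by omega) x)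
  have h3 : ∀ l i j, ∃ c, Cmp R (K * η) (dzb l (A i j)) c := fun l i j =>
    h (dzb l (A i j)) η (contDiff_dz (hA i j) l).2 hη fun k hk x => by
      rw [dzb_eq_wf]
      exact (norm_iter_wf (hA i j) l (by simp) hk x).trans (hb i j (k + 1) (by omega) x)
  choose cA hcA using h1
  choose cP hcP using h2
  choose cR hcR using h3
  exact ⟨⟨cA, cP, cR, hcA, hcP, hcR, fun i j => (hA i j).differentiable (by norm_num)⟩⟩

/-! ### the theorem -/

/-- the solution map -/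
def wmap (x : X) (z : C2) : C2 := fun j => x j 0 (z 0) (z 1)

theorem base0 (j : Fin 2) {z : C2} (hz : ‖z‖ ≤ 1) : base j 0 (z 0) (z 1) = z j := by
  fin_cases j
  · exact zc_eq ((norm_le_pi_norm z 0).trans hz)
  · exact zc_eq ((norm_le_pi_norm z 1).trans hz)

theorem base1 (j : Fin 2) {z : C2} (hz : ‖z‖ ≤ 1) :
    base j 1 (z 0) (z 1) = (Pi.single 0 1 : C2) j := by
  fin_cases j
  · exact zp_eq ((norm_le_pi_norm z 0).trans hz)
  · rfl

theorem base3 (j : Fin 2) {z : C2} (hz : ‖z‖ ≤ 1) :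
    base j 3 (z 0) (z 1) = (Pi.single 1 1 : C2) j := by
  fin_cases j
  · rfl
  · exact zp_eq ((norm_le_pi_norm z 1).trans hz)

theorem norm_diff_le {x : X} {ρ : ℝ} (h : ‖x - base‖ ≤ ρ) (j : Fin 2) (i : Fin 8) (a b : ℂ) :
    ‖x j i a b - base j i a b‖ ≤ ρ :=
  (norm_ev_le (x j i - base j i) a b).trans ((norm_coord_le (x - base) j i).trans h)

/-- **Newlander-Nirenberg for small integrable structures** (conditional on `CompHyp`). -/
theorem nn_of (hcomp : CompHyp) {δ : ℝ} (hδ : 0 < δ) (hδ1 : δ ≤ 1) : ∃ η : ℝ, 0 < η ∧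
    ∀ A : Fin 2 → Fin 2 → C2 → ℂ, (∀ i j, ContDiff ℝ 4 (A i j)) →
      (∀ i j, ∀ k : ℕ, k ≤ 4 → ∀ x, ‖iteratedFDeriv ℝ k (A i j) x‖ ≤ η) →
      IntOn A (Metric.ball 0 3) →
      ∃ w : C2 → C2, ContDiff ℝ 1 w ∧ (∀ z, ‖z‖ ≤ 1 → ‖w z - z‖ ≤ δ) ∧
        (∀ z, ‖z‖ ≤ 1 → ‖fderiv ℝ w z - ContinuousLinearMap.id ℝ C2‖ ≤ δ) ∧
        ∀ z, ‖z‖ ≤ 1 → ∀ k j, dzb k (fun z => w z j) z =
          -∑ i, A i j (w z) * conj (dz k (fun z => w z i) z) := by
  set ρ := δ / 4 with hρ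
  have hρ0 : 0 < ρ := by positivity
  set R := ‖base‖ + ρ with hR
  have hR0 : 0 < R := by have := norm_nonneg base; linarith
  obtain ⟨K, hK, hdata⟩ := exists_data hcomp R
  have hL := Lam_nonneg
  have hT := tC_nonneg
  have hm : 0 < max R 1 := lt_of_lt_of_le one_pos (le_max_right _ _)
  have hkR : 0 ≤ kR R := by unfold kR; positivity
  set Q : ℝ := Lam * kR R * K + tC * 4 * K * R + 1 with hQ
  have hQ0 : 0 < Q := by positivity
  set η : ℝ := min ρ (1 / 2) / Q with hη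
  have hmin : 0 < min ρ (1 / 2) := lt_min hρ0 (by norm_num)
  have hη0 : 0 < η := by positivity
  have hηQ : η * Q = min ρ (1 / 2) := by rw [hη]; field_simp
  refine ⟨η, hη0, fun A hA hb hint => ?_⟩
  obtain ⟨D⟩ := hdata A η hη0.le hA hb
  have hε : 0 ≤ K * η := by positivity
  have hsum : Lam * (kR R * (K * η)) ≤ min ρ (1 / 2) := by
    rw [← hηQ, hQ]
    have : 0 ≤ tC * 4 * K * R * η := by positivity
    nlinarith
  have hsum2 : tC * (4 * (K * η) * R) ≤ 1 / 2 := by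
    refine le_trans ?_ (min_le_right ρ (1 / 2))
    rw [← hηQ, hQ]
    have : 0 ≤ Lam * kR R * K * η := by positivity
    nlinarith
  obtain ⟨x, hx, hxρ, hfix⟩ := exists_solution D base Cons_base hρ0 le_rfl hε
    (hsum.trans (min_le_left _ _)) (hsum.trans (min_le_right _ _))
  have hxR : ‖x‖ ≤ R := by
    have : x = base + (x - base) := by abel
    rw [this]
    exact (norm_add_le _ _).trans (by linarith)
  have hwz : ∀ z : C2, ‖z‖ ≤ 1 → ‖wmap x z - z‖ ≤ ρ := fun z hz => by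
    refine (pi_norm_le_iff_of_nonneg hρ0.le).2 fun j => ?_
    have := norm_diff_le hxρ j 0 (z 0) (z 1)
    rwa [base0 j hz] at this
  have hU : ∀ a b : ℂ, ‖a‖ ≤ 1 → ‖b‖ ≤ 1 → (fun l => x l 0 a b : C2) ∈ Metric.ball (0 : C2) 3 := by
    intro a b ha hb
    have hz : ‖(![a, b] : C2)‖ ≤ 1 := by
      refine (pi_norm_le_iff_of_nonneg zero_le_one).2 fun i => ?_
      fin_cases i
      · exact ha
      · exact hb
    have h1 := hwz ![a, b] hz
    rw [mem_ball_zero_iff]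
    have h2 : wmap x ![a, b] = fun l => x l 0 a b := rfl
    rw [h2] at h1
    have h3 := norm_add_le ((fun l => x l 0 a b : C2) - ![a, b]) ![a, b]
    rw [sub_add_cancel] at h3
    have : ρ ≤ 1 / 4 := by rw [hρ]; linarith
    linarith
  have hE : ∀ z : C2, ‖z‖ ≤ 1 → ∀ l, Er D x l (z 0) (z 1) = 0 := fun z hz l =>
    Er_zero D hfix hxR hε hint hU hsum2 ((norm_le_pi_norm z 0).trans hz)
      ((norm_le_pi_norm z 1).trans hz) l
  have hdz := fun (j : Fin 2) (z : C2) => dz_two (hx j).1 (hx j).2.1 z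
  have hfd := fun (j : Fin 2) (z : C2) => hasFDerivAt_two (hx j).1 (hx j).2.1 z
  refine ⟨wmap x, ?_, fun z hz => (hwz z hz).trans (by rw [hρ]; linarith), fun z hz => ?_,
    fun z hz k j => ?_⟩
  · exact contDiff_pi.2 fun j => contDiff_two (hx j).1 (hx j).2.1
  · have h1 : HasFDerivAt (wmap x) (ContinuousLinearMap.pi fun j =>
        der2 (x j 1) (x j 2) (x j 3) (x j 4) z) z := hasFDerivAt_pi.2 fun j => hfd j z
    rw [h1.fderiv]
    refine ContinuousLinearMap.opNorm_le_bound _ hδ.le fun v => ?_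
    refine (pi_norm_le_iff_of_nonneg (by positivity)).2 fun j => ?_
    show ‖der2 (x j 1) (x j 2) (x j 3) (x j 4) z v - v j‖ ≤ _
    have e : der2 (x j 1) (x j 2) (x j 3) (x j 4) z v - v j =
        (x j 1 (z 0) (z 1) - base j 1 (z 0) (z 1)) * v 0 +
        (x j 2 (z 0) (z 1) - base j 2 (z 0) (z 1)) * conj (v 0) +
        ((x j 3 (z 0) (z 1) - base j 3 (z 0) (z 1)) * v 1 +
        (x j 4 (z 0) (z 1) - base j 4 (z 0) (z 1)) * conj (v 1)) := by
      rw [der2_apply, base1 j hz, base3 j hz, base2 j ((norm_le_pi_norm z 0).trans hz),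
        base4 j _ ((norm_le_pi_norm z 1).trans hz)]
      fin_cases j
      · simp
        ring
      · simp
        ring
    rw [e]
    have hv0 := norm_le_pi_norm v 0
    have hv1 := norm_le_pi_norm v 1
    have b1 := mul_le_mul (norm_diff_le hxρ j 1 (z 0) (z 1)) hv0 (norm_nonneg _) hρ0.le
    have b2 := mul_le_mul (norm_diff_le hxρ j 2 (z 0) (z 1)) hv0 (norm_nonneg _) hρ0.le
    have b3 := mul_le_mul (norm_diff_le hxρ j 3 (z 0) (z 1)) hv1 (norm_nonneg _) hρ0.le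
    have b4 := mul_le_mul (norm_diff_le hxρ j 4 (z 0) (z 1)) hv1 (norm_nonneg _) hρ0.le
    refine (norm_add_le _ _).trans ((add_le_add (norm_add_le _ _) (norm_add_le _ _)).trans ?_)
    rw [norm_mul, norm_mul, norm_mul, norm_mul, RCLike.norm_conj, RCLike.norm_conj]
    have : δ = 4 * ρ := by rw [hρ]; ring
    rw [this]
    linarith
  · have hz0 := (norm_le_pi_norm z 0).trans hz
    have hA : ∀ i, A i j (wmap x z) = D.cA i j (wof x) (z 0) (z 1) := fun i =>
      ((D.hA i j).app (wof x) (z 0) (z 1)).symm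
    show dzb k (fun z => x j 0 (z 0) (z 1)) z =
      -∑ i, A i j (wmap x z) * conj (dz k (fun z => x i 0 (z 0) (z 1)) z)
    simp only [hA]
    fin_cases k
    · show dzb 0 (fun z => x j 0 (z 0) (z 1)) z = -∑ i, D.cA i j (wof x) (z 0) (z 1) *
        conj (dz 0 (fun z => x i 0 (z 0) (z 1)) z)
      rw [(hdz j z).2.1, eq1 D hfix j hz0]
      simp only [(hdz _ z).1]
      simp [QQ, Fin.sum_univ_two]
    · show dzb 1 (fun z => x j 0 (z 0) (z 1)) z = -∑ i, D.cA i j (wof x) (z 0) (z 1) *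
        conj (dz 1 (fun z => x i 0 (z 0) (z 1)) z)
      have h1 := hE z hz j
      rw [(hdz j z).2.2.2]
      simp only [(hdz _ z).2.2.1]
      have h2 : x j 4 (z 0) (z 1) = QQ D 3 x j (z 0) (z 1) + Er D x j (z 0) (z 1) := by
        simp [Er]
      rw [h2, h1]
      simp [QQ, Fin.sum_univ_two]

end Vale.Agent.P267.H515
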