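import Vale.Agent.P267.H515.NN
import Vale.Agent.P267.H826.Comp

/-! P267 / EG-NN, part 9: the unconditional Newlander-Nirenberg theorem for small integrable
structures. helper515 (composition operators: helper826). -/

open MeasureTheory Real Set Filter Topology
open scoped ContDiff NNReal ComplexConjugate

noncomputable section

namespace Vale.Agent.P267.H515

open Vale.Agent.P272.K.LIN
open Vale.Agent.P267.FL (dz dzb C2)
open Vale.Agent.P267.H826 (C11 cmp cmp_apply norm_cmp_le norm_cmp_sub_le)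

theorem compHyp : CompHyp := by
  intro R
  set R' := max R 0 with hR'
  have hR0 : 0 ≤ R' := le_max_right _ _
  refine ⟨512 * (1 + 2 * R') ^ 2, by positivity, fun B M hB hM hb => ⟨cmp B, ?_⟩⟩
  have h1 : C11 M B := C11.of_contDiff (hB.of_le (by norm_num)) fun j hj x => hb j (by omega) x
  have h2 : C11 M (fderiv ℝ B) := C11.fderiv_of_contDiff hB fun j hj x => hb j hj x
  refine ⟨fun w z1 z2 => cmp_apply h1 w z1 z2, fun w hw => ?_, fun w v hw hv => ?_⟩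
  · have hw' : ‖w‖ ≤ R' := hw.trans (le_max_left _ _)
    have h0 := norm_nonneg w
    refine (norm_cmp_le h1 w).trans ?_
    have h3 : (1 + ‖w‖) ^ 2 ≤ (1 + 2 * R') ^ 2 := by gcongr; linarith
    calc 32 * M * (1 + ‖w‖) ^ 2 ≤ 512 * M * (1 + 2 * R') ^ 2 := by gcongr; norm_num
      _ = _ := by ring
  · have hw' : ‖w‖ ≤ R' := hw.trans (le_max_left _ _)
    have hv' : ‖v‖ ≤ R' := hv.trans (le_max_left _ _)
    have h0 := norm_nonneg w
    have h0' := norm_nonneg v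
    refine (norm_cmp_sub_le h1 h2 w v).trans ?_
    have h3 : (1 + ‖w‖ + ‖v‖) ^ 2 ≤ (1 + 2 * R') ^ 2 :=
      pow_le_pow_left₀ (by positivity) (by linarith) 2
    calc 512 * M * (1 + ‖w‖ + ‖v‖) ^ 2 * ‖w - v‖ ≤ 512 * M * (1 + 2 * R') ^ 2 * ‖w - v‖ := by
          gcongr
      _ = _ := by ring

/-- **Newlander-Nirenberg for small integrable structures on `ℂ²`** (Nijenhuis-Woolf). -/
theorem nn {δ : ℝ} (hδ : 0 < δ) (hδ1 : δ ≤ 1) : ∃ η : ℝ, 0 < η ∧
    ∀ A : Fin 2 → Fin 2 → C2 → ℂ, (∀ i j, ContDiff ℝ 4 (A i j)) →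
      (∀ i j, ∀ k : ℕ, k ≤ 4 → ∀ x, ‖iteratedFDeriv ℝ k (A i j) x‖ ≤ η) →
      IntOn A (Metric.ball 0 3) →
      ∃ w : C2 → C2, ContDiff ℝ 1 w ∧ (∀ z, ‖z‖ ≤ 1 → ‖w z - z‖ ≤ δ) ∧
        (∀ z, ‖z‖ ≤ 1 → ‖fderiv ℝ w z - ContinuousLinearMap.id ℝ C2‖ ≤ δ) ∧
        ∀ z, ‖z‖ ≤ 1 → ∀ k j, dzb k (fun z => w z j) z =
          -∑ i, A i j (w z) * conj (dz k (fun z => w z i) z) :=
  nn_of compHyp hδ hδ1

end Vale.Agent.P267.H515
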