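import Vale.Agent.P267.H515.Cau

/-! P267 / EG-NN, part 2: the operators `T` (solution of the `∂̄`-equation) and `S = ∂ T` on the
space of bounded `1/2`-Hölder functions on `ℂ`. helper515. -/

open MeasureTheory Real Set Filter Topology
open scoped RealInnerProductSpace ContDiff NNReal ComplexConjugate Convolution

noncomputable section

set_option linter.unusedSectionVars false
set_option linter.unusedVariables false
set_option linter.unusedSimpArgs false

namespace Vale.Agent.P267.H515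

open Vale.Agent.P272.K.LIN Vale.Agent.P272.K.H

/-- bounded real Hölder functions -/
abbrev RH : Type := Hol ww ℝ

theorem RH.sup (f : RH) (x : ℂ) : |f x| ≤ ‖f‖ := Hol.norm_apply_le f x

theorem RH.holB (f : RH) : HolB (1 / 2) ‖f‖ (f : ℂ → ℝ) := fun x y => Hol.norm_sub_le' f x y

theorem RH.continuous (f : RH) : Continuous (f : ℂ → ℝ) := f.holB.continuous (by norm_num)

section mk
variable {F : Type*} [NormedAddCommGroup F] [NormedSpace ℝ F]

/-- bounded linear operators from pointwise data -/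
def mkH (P : (ℂ → ℝ) → ℂ → F) (C : ℝ) (hC : 0 ≤ C)
    (add : ∀ (f g : RH) x, P (fun y => f y + g y) x = P f x + P g x)
    (smul : ∀ (c : ℝ) (f : RH) x, P (fun y => c • f y) x = c • P f x)
    (bd : ∀ (f : RH) x, ‖P f x‖ ≤ C * ‖f‖)
    (hol : ∀ (f : RH) x y, ‖P f x - P f y‖ ≤ C * ‖f‖ * ‖x - y‖ ^ (1 / 2 : ℝ)) : RH →L[ℝ] Hol ww F :=
  LinearMap.mkContinuous
    { toFun := fun f => (⟨P f, ⟨C * ‖f‖, bd f⟩, ⟨C * ‖f‖, hol f⟩⟩ : Hol ww F)
      map_add' := fun f g => Hol.ext fun x => add f g x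
      map_smul' := fun c f => Hol.ext fun x => smul c f x } (C + C) fun f => by
    have := Hol.norm_le_of (f := (⟨P f, ⟨C * ‖f‖, bd f⟩, ⟨C * ‖f‖, hol f⟩⟩ : Hol ww F))
      (by positivity : 0 ≤ C * ‖f‖) (by positivity : 0 ≤ C * ‖f‖) (bd f) (hol f)
    rw [add_mul]
    exact this

@[simp] theorem mkH_apply (P : (ℂ → ℝ) → ℂ → F) (C : ℝ) (hC : 0 ≤ C) (add) (smul) (bd) (hol)
    (f : RH) (x : ℂ) : mkH P C hC add smul bd hol f x = P f x := rfl

variable {k : ℂ → F}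

theorem avg_add (hk : Kern k) (f g : RH) (s : ℝ) (x : ℂ) :
    avg k s (fun y => f y + g y) x = avg k s f x + avg k s g x := by
  unfold avg
  rw [← integral_add (integrable_avg hk f.continuous f.sup s x)
    (integrable_avg hk g.continuous g.sup s x)]
  refine integral_congr_ae (Eventually.of_forall fun z => ?_)
  simp only [add_smul]

theorem avg_smul (c : ℝ) (f : ℂ → ℝ) (s : ℝ) (x : ℂ) :
    avg k s (fun y => c • f y) x = c • avg k s f x := by
  unfold avg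
  rw [← integral_smul]
  refine integral_congr_ae (Eventually.of_forall fun z => ?_)
  simp only [smul_eq_mul, mul_smul]

theorem sint_add (hk : Kern k) {l β γ : ℝ} (hl : 0 < l) (hβ : -1 < β + γ)
    (hD : ∀ f : RH, ∃ D, ∀ s, 0 < s → ∀ x, ‖avg k s f x‖ ≤ D * s ^ γ) (f g : RH) (x : ℂ) :
    sint (wt l β) k (fun y => f y + g y) x = sint (wt l β) k f x + sint (wt l β) k g x := by
  obtain ⟨D1, h1⟩ := hD f
  obtain ⟨D2, h2⟩ := hD g
  unfold sint
  rw [← integral_add (integrable_sint hk f.continuous f.sup hl hβ x fun s hs => h1 s hs x)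
    (integrable_sint hk g.continuous g.sup hl hβ x fun s hs => h2 s hs x)]
  refine integral_congr_ae (Eventually.of_forall fun s => ?_)
  simp only [avg_add hk, smul_add]

theorem sint_smul (c : ℝ) (w : ℝ → ℝ) (f : ℂ → ℝ) (x : ℂ) :
    sint w k (fun y => c • f y) x = c • sint w k f x := by
  unfold sint
  rw [← integral_smul]
  refine integral_congr_ae (Eventually.of_forall fun s => ?_)
  simp only [avg_smul, smul_comm c]

end mk

/-! ### the resolvent operators -/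

theorem half01 : (0 : ℝ) < 1 / 2 ∧ (1 / 2 : ℝ) < 1 := by norm_num

/-- the constant of the resolvent theorem -/
def rC : ℝ := (resolvent ℂ half01.1 half01.2).choose

theorem rC_pos : 0 < rC := (resolvent ℂ half01.1 half01.2).choose_spec.1

theorem RH.HB (f : RH) : Vale.Agent.P272.K.LIN.HB (1 / 2) (f : ℂ → ℝ) ‖f‖ ‖f‖ :=
  ⟨f.sup, fun x y => f.holB x y⟩

theorem resSpec (f : RH) : ContDiff ℝ 2 (res 1 f) ∧
      (∀ (ι : Type) [Fintype ι] (b : OrthonormalBasis ι ℝ ℂ) (x : ℂ),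
        1 * res 1 f x - ∑ i, fderiv ℝ (fderiv ℝ (res 1 f)) x (b i) (b i) = f x) ∧
      ResBd (1 / 2) 1 rC ((1 : ℝ) ^ ((1 / 2 : ℝ) / 2) * ‖f‖ + ‖f‖) (res 1 f) :=
  (resolvent ℂ half01.1 half01.2).choose_spec.2 1 one_pos f ‖f‖ ‖f‖ (norm_nonneg _) f.HB

theorem d0 (f : RH) (x : ℂ) : HasFDerivAt (res 1 (f : ℂ → ℝ)) (res1 1 f x) x :=
  hasFDerivAt_res half01.1 half01.2 one_pos f.sup f.holB x

theorem d1 (f : RH) (x : ℂ) : HasFDerivAt (res1 1 (f : ℂ → ℝ)) (res2 1 f x) x :=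
  hasFDerivAt_res1 half01.1 half01.2 one_pos f.sup f.holB x

theorem e1 (f : RH) : fderiv ℝ (res 1 (f : ℂ → ℝ)) = res1 1 f := funext fun x => (d0 f x).fderiv

theorem e2 (f : RH) : fderiv ℝ (res1 1 (f : ℂ → ℝ)) = res2 1 f := funext fun x => (d1 f x).fderiv

theorem pow_rC (f : RH) (p : ℝ) :
    rC * ((1 : ℝ) ^ ((1 / 2 : ℝ) / 2) * ‖f‖ + ‖f‖) * (1 : ℝ) ^ p = 2 * rC * ‖f‖ := by
  rw [Real.one_rpow, Real.one_rpow]; ring

theorem b0 (f : RH) (x : ℂ) : ‖res 1 (f : ℂ → ℝ) x‖ ≤ 2 * rC * ‖f‖ := by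
  have := (resSpec f).2.2.zero.sup x
  rwa [pow_rC] at this

theorem h0 (f : RH) (x y : ℂ) : ‖res 1 (f : ℂ → ℝ) x - res 1 f y‖ ≤
    2 * rC * ‖f‖ * ‖x - y‖ ^ (1 / 2 : ℝ) := by
  have := (resSpec f).2.2.zero.hol x y
  rwa [pow_rC] at this

theorem b1 (f : RH) (x : ℂ) : ‖res1 1 (f : ℂ → ℝ) x‖ ≤ 2 * rC * ‖f‖ := by
  have := (resSpec f).2.2.one.sup x
  rwa [pow_rC, e1] at this

theorem h1 (f : RH) (x y : ℂ) : ‖res1 1 (f : ℂ → ℝ) x - res1 1 f y‖ ≤
    2 * rC * ‖f‖ * ‖x - y‖ ^ (1 / 2 : ℝ) := by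
  have := (resSpec f).2.2.one.hol x y
  rwa [pow_rC, e1] at this

theorem b2 (f : RH) (x : ℂ) : ‖res2 1 (f : ℂ → ℝ) x‖ ≤ 2 * rC * ‖f‖ := by
  have := (resSpec f).2.2.two.sup x
  rwa [pow_rC, e1, e2] at this

theorem h2 (f : RH) (x y : ℂ) : ‖res2 1 (f : ℂ → ℝ) x - res2 1 f y‖ ≤
    2 * rC * ‖f‖ * ‖x - y‖ ^ (1 / 2 : ℝ) := by
  have := (resSpec f).2.2.two.hol x y
  rw [e1, e2, Real.one_rpow] at this
  refine this.trans (le_of_eq ?_)
  ring

theorem rC2 : 0 ≤ 2 * rC := by have := rC_pos; positivity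

/-- `res 1` as an operator -/
def Q0 : RH →L[ℝ] Hol ww ℝ := mkH (res 1) (2 * rC) rC2
  (fun f g x => sint_add (γ := 0) (kern_Gk tg0) one_pos (by norm_num)
    (fun f => ⟨_, fun s _ x => bd0 f.sup s x⟩) f g x)
  (fun c f x => sint_smul c _ _ x) b0 h0

/-- the first derivative of `res 1` as an operator -/
def Q1 : RH →L[ℝ] Hol ww (ℂ →L[ℝ] ℝ) := mkH (res1 1) (2 * rC) rC2
  (fun f g x => sint_add (γ := 1 / 2) (kern_Gk tg1) one_pos (by norm_num)
    (fun f => ⟨_, fun s hs x => bd1 half01.1 half01.2 f.sup f.holB hs x⟩) f g x)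
  (fun c f x => sint_smul c _ _ x) b1 h1

/-- the second derivative of `res 1` as an operator -/
def Q2 : RH →L[ℝ] Hol ww (ℂ →L[ℝ] ℂ →L[ℝ] ℝ) := mkH (res2 1) (2 * rC) rC2
  (fun f g x => sint_add (γ := 1 / 2) (kern_Gk tg2) one_pos (by norm_num)
    (fun f => ⟨_, fun s hs x => bd2 half01.1 half01.2 f.sup f.holB hs x⟩) f g x)
  (fun c f x => sint_smul c _ _ x) b2 h2

theorem Q0_apply (f : RH) (x : ℂ) : Q0 f x = res 1 f x := rfl
theorem Q1_apply (f : RH) (x : ℂ) : Q1 f x = res1 1 f x := rfl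
theorem Q2_apply (f : RH) (x : ℂ) : Q2 f x = res2 1 f x := rfl

theorem hasFDerivAt_Q0 (f : RH) (x : ℂ) : HasFDerivAt (Q0 f) (Q1 f x) x := d0 f x
theorem hasFDerivAt_Q1 (f : RH) (x : ℂ) : HasFDerivAt (Q1 f) (Q2 f x) x := d1 f x

theorem Q2_symm (f : RH) (x v w : ℂ) : Q2 f x v w = Q2 f x w v := by
  have h : ContDiff ℝ 2 (res 1 (f : ℂ → ℝ)) := (resSpec f).1
  have h1 := (h.contDiffAt (x := x)).isSymmSndFDerivAt (by simp)
  have h2 := h1 v w
  rw [e1, e2] at h2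
  exact h2

theorem Q_eq (f : RH) (x : ℂ) :
    Q0 f x - (Q2 f x 1 1 + Q2 f x Complex.I Complex.I) = f x := by
  have h := (resSpec f).2.1 (Fin 2) Complex.orthonormalBasisOneI x
  rw [Fin.sum_univ_two, one_mul, e1, e2] at h
  have e3 : (Complex.orthonormalBasisOneI 0 : ℂ) = 1 := by
    simp [Complex.coe_orthonormalBasisOneI]
  have e4 : (Complex.orthonormalBasisOneI 1 : ℂ) = Complex.I := by
    simp [Complex.coe_orthonormalBasisOneI]
  rw [e3, e4] at h
  exact h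

/-! sup bounds -/

/-- constant of the sup bounds -/
def sC : ℝ := (∫ z : ℂ, ‖Gk q0 z‖) + (∫ z : ℂ, ‖Gk q1 z‖) * Real.Gamma (1 / 2)

theorem sC_nonneg : 0 ≤ sC := by
  have := L1_nonneg (Gk (q0 : ℂ → ℝ))
  have := L1_nonneg (Gk (q1 : ℂ → ℂ →L[ℝ] ℝ))
  have := Real.Gamma_pos_of_pos (by norm_num : (0 : ℝ) < 1 / 2)
  unfold sC
  positivity

theorem Q0_sup (f : RH) {A : ℝ} (hA : ∀ x, |f x| ≤ A) (x : ℂ) : |Q0 f x| ≤ sC * A := by
  have hA0 : 0 ≤ A := (abs_nonneg _).trans (hA 0)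
  have h := norm_sint_le (β := 1) (γ := 0) one_pos (by norm_num) x (fun s _ => bd0 hA s x)
  rw [show ((1 : ℝ) + 0 + 1) / 2 = 1 by norm_num, Real.Gamma_one, Real.one_rpow, mul_one,
    mul_one] at h
  have h1 := L1_nonneg (Gk (q1 : ℂ → ℂ →L[ℝ] ℝ))
  have h2 := Real.Gamma_pos_of_pos (by norm_num : (0 : ℝ) < 1 / 2)
  refine h.trans ?_
  unfold sC
  have : 0 ≤ (∫ z : ℂ, ‖Gk q1 z‖) * Real.Gamma (1 / 2) * A := by positivity
  nlinarith

theorem Q1_sup (f : RH) {A : ℝ} (hA : ∀ x, |f x| ≤ A) (x : ℂ) : ‖Q1 f x‖ ≤ sC * A := by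
  have hA0 : 0 ≤ A := (abs_nonneg _).trans (hA 0)
  have h := norm_sint_le (k := Gk (q1 : ℂ → ℂ →L[ℝ] ℝ)) (f := f) (l := 1) (β := 0) (γ := 0)
    (D := A * ∫ z : ℂ, ‖Gk q1 z‖) one_pos (by norm_num) x
    (fun s _ => by simpa using norm_avg_le (kern_Gk tg1) hA s x)
  rw [show ((0 : ℝ) + 0 + 1) / 2 = 1 / 2 by norm_num, Real.one_rpow, one_mul] at h
  have h1 := L1_nonneg (Gk (q0 : ℂ → ℝ))
  refine h.trans ?_
  unfold sC
  have : 0 ≤ (∫ z : ℂ, ‖Gk q0 z‖) * A := by positivity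
  nlinarith

/-! ### complexification -/

/-- real part -/
def reZ : Z →L[ℝ] RH := Hol.map Complex.reCLM
/-- imaginary part -/
def imZ : Z →L[ℝ] RH := Hol.map Complex.imCLM

@[simp] theorem reZ_apply (f : Z) (x : ℂ) : reZ f x = (f x).re := rfl
@[simp] theorem imZ_apply (f : Z) (x : ℂ) : imZ f x = (f x).im := rfl

/-- multiplication by a complex constant -/
def mc (c : ℂ) : Z →L[ℝ] Z := Hol.map (ContinuousLinearMap.mul ℝ ℂ c)

@[simp] theorem mc_apply (c : ℂ) (f : Z) (x : ℂ) : mc c f x = c * f x := rfl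

/-- complexification of a real operator -/
def cx (Q : RH →L[ℝ] RH) : Z →L[ℝ] Z :=
  (Hol.map Complex.ofRealCLM).comp (Q.comp reZ) +
    (mc Complex.I).comp ((Hol.map Complex.ofRealCLM).comp (Q.comp imZ))

theorem cx_apply (Q : RH →L[ℝ] RH) (f : Z) (x : ℂ) :
    cx Q f x = (Q (reZ f) x : ℂ) + Complex.I * (Q (imZ f) x : ℂ) := rfl

/-- `f` has a derivative at `x` whose values are given by `D` -/
def HD (f : ℂ → ℂ) (D : ℂ → ℂ) (x : ℂ) : Prop :=
  ∃ L : ℂ →L[ℝ] ℂ, HasFDerivAt f L x ∧ ∀ v, L v = D v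

theorem HD.add {f g D E : ℂ → ℂ} {x : ℂ} (hf : HD f D x) (hg : HD g E x) :
    HD (fun y => f y + g y) (fun v => D v + E v) x := by
  obtain ⟨L, hL, h1⟩ := hf
  obtain ⟨M, hM, h2⟩ := hg
  exact ⟨L + M, hL.add hM, fun v => by simp [h1, h2]⟩

theorem HD.const_mul {f D : ℂ → ℂ} {x : ℂ} (c : ℂ) (hf : HD f D x) :
    HD (fun y => c * f y) (fun v => c * D v) x := by
  obtain ⟨L, hL, h1⟩ := hf
  refine ⟨c • L, hL.const_mul c, fun v => by simp [h1]⟩

theorem HD.mul {f g D E : ℂ → ℂ} {x : ℂ} (hf : HD f D x) (hg : HD g E x) :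
    HD (fun y => f y * g y) (fun v => D v * g x + f x * E v) x := by
  obtain ⟨L, hL, h1⟩ := hf
  obtain ⟨M, hM, h2⟩ := hg
  refine ⟨_, hL.mul hM, fun v => by simp [h1, h2]; ring⟩

theorem HD.fderiv {f D : ℂ → ℂ} {x : ℂ} (h : HD f D x) (v : ℂ) : fderiv ℝ f x v = D v := by
  obtain ⟨L, hL, h1⟩ := h
  rw [hL.fderiv, h1]

theorem HD.of_real {f : ℂ → ℝ} {L : ℂ →L[ℝ] ℝ} {x : ℂ} (h : HasFDerivAt f L x) :
    HD (fun y => (f y : ℂ)) (fun v => (L v : ℂ)) x :=
  ⟨Complex.ofRealCLM.comp L, Complex.ofRealCLM.hasFDerivAt.comp x h, fun v => rfl⟩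

/-- the resolvent on complex functions -/
def P0 : Z →L[ℝ] Z := cx Q0
/-- its derivative -/
def P1 (v : ℂ) : Z →L[ℝ] Z := cx ((Hol.map (ContinuousLinearMap.apply ℝ ℝ v)).comp Q1)
/-- its second derivative -/
def P2 (v w : ℂ) : Z →L[ℝ] Z :=
  cx ((Hol.map ((ContinuousLinearMap.apply ℝ ℝ w).comp
    (ContinuousLinearMap.apply ℝ (ℂ →L[ℝ] ℝ) v))).comp Q2)

theorem P0_apply (f : Z) (x : ℂ) :
    P0 f x = (Q0 (reZ f) x : ℂ) + Complex.I * (Q0 (imZ f) x : ℂ) := rfl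
theorem P1_apply (v : ℂ) (f : Z) (x : ℂ) :
    P1 v f x = (Q1 (reZ f) x v : ℂ) + Complex.I * (Q1 (imZ f) x v : ℂ) := rfl
theorem P2_apply (v w : ℂ) (f : Z) (x : ℂ) :
    P2 v w f x = (Q2 (reZ f) x v w : ℂ) + Complex.I * (Q2 (imZ f) x v w : ℂ) := rfl

theorem HD_P0 (f : Z) (x : ℂ) : HD (P0 f) (fun v => P1 v f x) x :=
  (HD.of_real (hasFDerivAt_Q0 (reZ f) x)).add
    ((HD.of_real (hasFDerivAt_Q0 (imZ f) x)).const_mul Complex.I)

theorem HD_P1 (f : Z) (w x : ℂ) : HD (P1 w f) (fun v => P2 v w f x) x := by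
  have h : ∀ g : RH, HasFDerivAt (fun y => Q1 g y w)
      ((ContinuousLinearMap.apply ℝ ℝ w).comp (Q2 g x)) x := fun g =>
    (ContinuousLinearMap.apply ℝ ℝ w).hasFDerivAt.comp x (hasFDerivAt_Q1 g x)
  exact (HD.of_real (h (reZ f))).add ((HD.of_real (h (imZ f))).const_mul Complex.I)

theorem P2_symm (v w : ℂ) (f : Z) (x : ℂ) : P2 v w f x = P2 w v f x := by
  rw [P2_apply, P2_apply, Q2_symm, Q2_symm (imZ f)]

theorem P_eq (f : Z) (x : ℂ) :
    P0 f x - (P2 1 1 f x + P2 Complex.I Complex.I f x) = f x := by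
  have h1 := congrArg (fun t : ℝ => (t : ℂ)) (Q_eq (reZ f) x)
  have h2 := congrArg (fun t : ℝ => (t : ℂ)) (Q_eq (imZ f) x)
  simp only [reZ_apply, imZ_apply] at h1 h2
  push_cast at h1 h2
  rw [P0_apply, P2_apply, P2_apply]
  conv_rhs => rw [← Complex.re_add_im (f x), ← h1, ← h2]
  ring

theorem P0_contDiff (f : Z) : ContDiff ℝ 2 (P0 f) := by
  have h1 : ContDiff ℝ 2 (fun x => (Q0 (reZ f) x : ℂ)) :=
    Complex.ofRealCLM.contDiff.comp (resSpec (reZ f)).1
  have h2 : ContDiff ℝ 2 (fun x => (Q0 (imZ f) x : ℂ)) :=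
    Complex.ofRealCLM.contDiff.comp (resSpec (imZ f)).1
  exact h1.add (contDiff_const.mul h2)

theorem P0_sup (f : Z) {A : ℝ} (hA : ∀ x, ‖f x‖ ≤ A) (x : ℂ) : ‖P0 f x‖ ≤ 2 * sC * A := by
  rw [P0_apply]
  refine (norm_add_le _ _).trans ?_
  rw [norm_mul, Complex.norm_I, one_mul, Complex.norm_real, Complex.norm_real, Real.norm_eq_abs,
    Real.norm_eq_abs]
  have h1 := Q0_sup (reZ f) (fun x => (Complex.abs_re_le_norm (f x)).trans (hA x)) x
  have h2 := Q0_sup (imZ f) (fun x => (Complex.abs_im_le_norm (f x)).trans (hA x)) x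
  linarith

theorem P1_sup (v : ℂ) (f : Z) {A : ℝ} (hA : ∀ x, ‖f x‖ ≤ A) (x : ℂ) :
    ‖P1 v f x‖ ≤ 2 * sC * A * ‖v‖ := by
  rw [P1_apply]
  refine (norm_add_le _ _).trans ?_
  rw [norm_mul, Complex.norm_I, one_mul, Complex.norm_real, Complex.norm_real]
  have h1 := Q1_sup (reZ f) (fun x => (Complex.abs_re_le_norm (f x)).trans (hA x)) x
  have h2 := Q1_sup (imZ f) (fun x => (Complex.abs_im_le_norm (f x)).trans (hA x)) x
  have h3 := ((Q1 (reZ f) x).le_opNorm v).trans (mul_le_mul_of_nonneg_right h1 (norm_nonneg v))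
  have h4 := ((Q1 (imZ f) x).le_opNorm v).trans (mul_le_mul_of_nonneg_right h2 (norm_nonneg v))
  linarith

/-! ### the Cauchy transform as an operator -/

/-- functions supported in the open disc of radius `2` -/
def Sup2 (f : ℂ → ℂ) : Prop := ∀ x, 2 ≤ ‖x‖ → f x = 0

theorem Z.continuous_mul (ψ f : Z) : Continuous fun x => ψ x * f x :=
  ψ.continuous.mul f.continuous

/-- the operator `f ↦ Cau (ψ f)` -/
def CauZ (ψ : Z) (hψ : Sup2 ψ) : Z →L[ℝ] Z :=
  have hs : ∀ f : Z, ∀ x, 2 ≤ ‖x‖ → ψ x * f x = 0 := fun f x hx => by rw [hψ x hx, zero_mul]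
  have hb : ∀ (f : Z) x, ‖Cau (fun y => ψ y * f y) x‖ ≤ k2 * ‖ψ * f‖ := fun f x =>
    Cau_bound (hs f) (fun x => (ψ * f).sup x) x
  have hh : ∀ (f : Z) x y, ‖Cau (fun y => ψ y * f y) x - Cau (fun y => ψ y * f y) y‖ ≤
      2 * k2 * ‖ψ * f‖ * ‖x - y‖ ^ (1 / 2 : ℝ) := fun f x y => by
    refine (Cau_sub_bound (ψ.continuous_mul f) (hs f) x y (B := ‖ψ * f‖ * ‖x - y‖ ^ (1 / 2 : ℝ))
      fun t => ?_).trans (le_of_eq (by ring))
    have := (ψ * f).hol (x - t) (y - t)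
    rwa [sub_sub_sub_cancel_right] at this
  LinearMap.mkContinuous
    { toFun := fun f => (⟨Cau fun y => ψ y * f y, ⟨_, hb f⟩, ⟨_, hh f⟩⟩ : Z)
      map_add' := fun f g => Hol.ext fun x => by
        have := Cau_add (ψ.continuous_mul f) (hs f) (ψ.continuous_mul g) (hs g) x
        show Cau (fun y => ψ y * (f y + g y)) x = _
        simp_rw [mul_add]
        exact this
      map_smul' := fun c f => Hol.ext fun x => by
        show Cau (fun y => ψ y * (c • f y)) x = c • Cau (fun y => ψ y * f y) x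
        rw [Complex.real_smul, ← Cau_smul]
        refine congrFun (congrArg Cau (funext fun y => ?_)) x
        rw [Complex.real_smul]; ring } (3 * k2 * ‖ψ‖) fun f => by
    have hk := k2_nonneg
    have := Hol.norm_le_of (f := (⟨Cau fun y => ψ y * f y, ⟨_, hb f⟩, ⟨_, hh f⟩⟩ : Z))
      (by positivity : 0 ≤ k2 * ‖ψ * f‖) (by positivity : 0 ≤ 2 * k2 * ‖ψ * f‖) (hb f) (hh f)
    have h2 : ‖ψ * f‖ ≤ ‖ψ‖ * ‖f‖ := norm_mul_le _ _
    calc _ ≤ k2 * ‖ψ * f‖ + 2 * k2 * ‖ψ * f‖ := this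
      _ = 3 * k2 * ‖ψ * f‖ := by ring
      _ ≤ 3 * k2 * (‖ψ‖ * ‖f‖) := mul_le_mul_of_nonneg_left h2 (by positivity)
      _ = _ := by ring

theorem CauZ_apply (ψ : Z) (hψ : Sup2 ψ) (f : Z) (x : ℂ) :
    CauZ ψ hψ f x = Cau (fun y => ψ y * f y) x := rfl

theorem chiZ_sup2 : Sup2 chiZ := fun x hx => chi_zero hx

/-- smooth functions with compact support are in `Z` -/
def ofSmooth (f : ℂ → ℂ) (hf : ContDiff ℝ 1 f) (hc : HasCompactSupport f) : Z :=
  ⟨f, hf.continuous.bounded_above_of_compact_support hc |>.imp fun C h x => h x, by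
    obtain ⟨L, hL⟩ := hf.lipschitzWith_of_hasCompactSupport hc one_ne_zero
    obtain ⟨A, hA⟩ := hf.continuous.bounded_above_of_compact_support hc
    refine ⟨2 * A + L, fun x y => hol_of_lip ((norm_nonneg _).trans (hA 0)) L.2 hA
      (fun x y => ?_) x y⟩
    have := hL.dist_le_mul x y
    rwa [dist_eq_norm, dist_eq_norm] at this⟩

@[simp] theorem ofSmooth_apply (f : ℂ → ℂ) (hf) (hc) (x : ℂ) : ofSmooth f hf hc x = f x := rfl

/-- the derivatives of the cutoff function -/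
def chi1 (v : ℂ) : Z := ofSmooth (fun x => fderiv ℝ chi x v)
  ((chi_smooth.fderiv_right (m := 1) (by norm_cast)).clm_apply contDiff_const)
  (chi_supp.fderiv_apply ℝ v)

theorem chi1_apply (v x : ℂ) : chi1 v x = fderiv ℝ chi x v := rfl

theorem chi1_sup2 (v : ℂ) : Sup2 (chi1 v) := by
  intro x hx
  have h1 : chi =ᶠ[𝓝 x] fun _ => 0 := by
    have : {y : ℂ | 3 / 2 < ‖y‖} ∈ 𝓝 x :=
      (isOpen_lt continuous_const continuous_norm).mem_nhds (by
        show 3 / 2 < ‖x‖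
        linarith)
    filter_upwards [this] with y hy
    exact chi_zero' hy.le
  rw [chi1_apply, h1.fderiv_eq]
  simp

theorem HD_chi (x : ℂ) : HD chi (fun v => chi1 v x) x :=
  ⟨fderiv ℝ chi x, (chi_smooth.differentiable (by simp) x).hasFDerivAt, fun v => rfl⟩

/-! ### the operators -/

/-- the pieces of the operators -/
def U0 : Z →L[ℝ] Z := P0.comp ext
def U1 (v : ℂ) : Z →L[ℝ] Z := (P1 v).comp ext
def U2 (v w : ℂ) : Z →L[ℝ] Z := (P2 v w).comp ext
def K1 (v : ℂ) : Z →L[ℝ] Z :=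
  (CauZ (chi1 v) (chi1_sup2 v)).comp U0 + (CauZ chiZ chiZ_sup2).comp (U1 v)

/-- the solution operator of the `∂̄`-equation on the unit disc -/
def T : Z →L[ℝ] Z :=
  (mc (-2)).comp (U1 1 - (mc Complex.I).comp (U1 Complex.I)) + (CauZ chiZ chiZ_sup2).comp U0

/-- `S = ∂ T` -/
def S : Z →L[ℝ] Z :=
  -U2 1 1 + (mc Complex.I).comp (U2 1 Complex.I + U2 Complex.I 1) + U2 Complex.I Complex.I +
    (mc (1 / 2)).comp (K1 1 - (mc Complex.I).comp (K1 Complex.I))

/-- `∂̄ T`, the identity on the unit disc -/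
def hat : Z →L[ℝ] Z := ext - U0 + (Hol.bilL (ContinuousLinearMap.mul ℝ ℂ) chiZ).comp U0

theorem T_apply (f : Z) (x : ℂ) : T f x =
    -2 * (U1 1 f x - Complex.I * U1 Complex.I f x) + Cau (fun y => chi y * U0 f y) x := rfl

theorem S_apply (f : Z) (x : ℂ) : S f x =
    -U2 1 1 f x + Complex.I * (U2 1 Complex.I f x + U2 Complex.I 1 f x) +
      U2 Complex.I Complex.I f x +
      (1 / 2) * (K1 1 f x - Complex.I * K1 Complex.I f x) := rfl

theorem hat_apply (f : Z) (x : ℂ) : hat f x = ext f x - U0 f x + chi x * U0 f x := rfl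

theorem hat_eq (f : Z) {x : ℂ} (h : ‖x‖ ≤ 1) : hat f x = f x := by
  rw [hat_apply, ext_eq f h, chi_one h]; ring

theorem K1_apply (v : ℂ) (f : Z) (x : ℂ) : K1 v f x =
    Cau (fun y => chi1 v y * U0 f y) x + Cau (fun y => chi y * U1 v f y) x := rfl

/-- the function to which the Cauchy transform is applied -/
theorem gg_contDiff (f : Z) : ContDiff ℝ 1 fun y => chi y * U0 f y :=
  (chi_smooth.of_le (by norm_cast)).mul ((P0_contDiff (ext f)).of_le (by norm_cast))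

theorem gg_sup2 (f : Z) : Sup2 fun y => chi y * U0 f y := fun x hx => by
  simp only [chi_zero hx, zero_mul]

theorem HD_gg (f : Z) (x : ℂ) : HD (fun y => chi y * U0 f y)
    (fun v => chi1 v x * U0 f x + chi x * U1 v f x) x :=
  (HD_chi x).mul (HD_P0 (ext f) x)

theorem HD_Cgg (f : Z) (x : ℂ) : HD (Cau fun y => chi y * U0 f y) (fun v => K1 v f x) x := by
  obtain ⟨L, hL, h1⟩ := hasFDerivAt_Cau (gg_contDiff f) (hcs_of (gg_sup2 f)) x
  refine ⟨L, hL, fun v => ?_⟩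
  show _ = K1 v f x
  have h2 := Cau_add ((chi1 v).continuous_mul (U0 f))
    (fun x hx => by rw [chi1_sup2 v x hx, zero_mul]) (chiZ.continuous_mul (U1 v f))
    (fun x hx => by rw [chiZ_sup2 x hx, zero_mul]) x
  rw [h1, K1_apply]
  refine Eq.trans ?_ h2
  refine congrFun (congrArg Cau (funext fun y => ?_)) x
  exact (HD_gg f y).fderiv v

theorem K1_eq (f : Z) (x : ℂ) :
    K1 1 f x + Complex.I * K1 Complex.I f x = 2 * (chi x * U0 f x) := by
  have h := Cau_db (gg_contDiff f) (hcs_of (gg_sup2 f)) x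
  rw [← h]
  have hc : ∀ v, Continuous fun y => fderiv ℝ (fun y => chi y * U0 f y) y v := fun v =>
    ((gg_contDiff f).continuous_fderiv (by simp)).clm_apply continuous_const
  have hs : ∀ v x, 2 ≤ ‖x‖ → fderiv ℝ (fun y => chi y * U0 f y) x v = 0 := fun v x hx => by
    rw [(HD_gg f x).fderiv v, chi1_sup2 v x hx, chi_zero hx]
    simp
  have h4 := Cau_add (g := fun y => Complex.I * fderiv ℝ (fun y => chi y * U0 f y) y Complex.I)
    (hc 1) (hs 1) (continuous_const.mul (hc Complex.I))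
    (fun x hx => by rw [hs Complex.I x hx, mul_zero]) x
  rw [h4, Cau_smul]
  have e : ∀ v, K1 v f x = Cau (fun y => fderiv ℝ (fun y => chi y * U0 f y) y v) x := by
    intro v
    rw [← (HD_Cgg f x).fderiv v]
    obtain ⟨L, hL, h1⟩ := hasFDerivAt_Cau (gg_contDiff f) (hcs_of (gg_sup2 f)) x
    rw [hL.fderiv, h1]
  rw [e, e]

/-- the real linear map `v ↦ a v + b v̄` -/
def cpl (a b : ℂ) : ℂ →L[ℝ] ℂ :=
  ContinuousLinearMap.mul ℝ ℂ a + (ContinuousLinearMap.mul ℝ ℂ b).comp Complex.conjCLE.toContinuousLinearMap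

@[simp] theorem cpl_apply (a b v : ℂ) : cpl a b v = a * v + b * conj v := rfl

theorem clm_eq_cpl (L : ℂ →L[ℝ] ℂ) : L = cpl ((1 / 2) * (L 1 - Complex.I * L Complex.I))
    ((1 / 2) * (L 1 + Complex.I * L Complex.I)) := by
  ext1 v
  have h : v = v.re • (1 : ℂ) + v.im • Complex.I := by
    simp [Complex.real_smul, Complex.re_add_im]
  have h1 : L v = v.re * L 1 + v.im * L Complex.I := by
    conv_lhs => rw [h]
    rw [map_add, map_smul, map_smul, Complex.real_smul, Complex.real_smul]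
  rw [h1, cpl_apply]
  have h2 : conj v = v.re - v.im * Complex.I := by
    apply Complex.ext <;> simp
  have h3 : v = v.re + v.im * Complex.I := (Complex.re_add_im v).symm
  rw [h2]
  conv_rhs => rw [h3]
  simp only [Complex.add_re, Complex.ofReal_re, Complex.mul_re, Complex.I_re, mul_zero,
    Complex.ofReal_im, Complex.I_im, mul_one, sub_self, add_zero, Complex.add_im, Complex.mul_im,
    zero_add]
  ring_nf
  rw [Complex.I_sq]
  ring

/-- **The derivative of `T f`.** -/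
theorem hasFDerivAt_T (f : Z) (x : ℂ) : HasFDerivAt (T f) (cpl (S f x) (hat f x)) x := by
  have h : HD (T f) (fun v => -2 * (U2 v 1 f x + -Complex.I * U2 v Complex.I f x) + K1 v f x) x := by
    have h1 := (HD_P1 (ext f) 1 x).add ((HD_P1 (ext f) Complex.I x).const_mul (-Complex.I))
    have h2 := (h1.const_mul (-2)).add (HD_Cgg f x)
    obtain ⟨L, hL, h3⟩ := h2
    refine ⟨L, ?_, h3⟩
    refine hL.congr_of_eventuallyEq (Eventually.of_forall fun y => ?_)
    rw [T_apply]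
    show _ = -2 * (P1 1 (ext f) y + -Complex.I * P1 Complex.I (ext f) y) + _
    have : ∀ v, U1 v f y = P1 v (ext f) y := fun v => rfl
    rw [this, this]
    ring
  obtain ⟨L, hL, h1⟩ := h
  convert hL using 1
  rw [clm_eq_cpl L, h1, h1]
  simp only []
  have hK := K1_eq f x
  have hP : U0 f x - (U2 1 1 f x + U2 Complex.I Complex.I f x) = ext f x := P_eq (ext f) x
  have hsym : U2 1 Complex.I f x = U2 Complex.I 1 f x := P2_symm 1 Complex.I (ext f) x
  congr 1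
  · rw [S_apply]
    ring_nf
    rw [Complex.I_sq]
    ring
  · rw [hat_apply, ← hP]
    have : chi x * U0 f x = (1 / 2) * (K1 1 f x + Complex.I * K1 Complex.I f x) := by
      rw [hK]; ring
    rw [this, hsym]
    ring_nf
    rw [Complex.I_sq]
    ring

/-- constant of the sup bound -/
def tC : ℝ := 8 * sC + 2 * k2 * sC

theorem tC_nonneg : 0 ≤ tC := by
  have := sC_nonneg
  have := k2_nonneg
  unfold tC
  positivity

/-- **The sup bound of `T f`** in terms of the values of `f` on the closed unit disc. -/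
theorem T_sup (f : Z) {A : ℝ} (h : ∀ x, ‖x‖ ≤ 1 → ‖f x‖ ≤ A) (x : ℂ) : ‖T f x‖ ≤ tC * A := by
  have hA := norm_ext_le h
  have hA0 : 0 ≤ A := (norm_nonneg _).trans (hA 0)
  have hs := sC_nonneg
  have hk := k2_nonneg
  have h1 : ‖U1 1 f x‖ ≤ 2 * sC * A := by
    have := P1_sup 1 (ext f) hA x
    rwa [norm_one, mul_one] at this
  have h2 : ‖U1 Complex.I f x‖ ≤ 2 * sC * A := by
    have := P1_sup Complex.I (ext f) hA x
    rwa [Complex.norm_I, mul_one] at this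
  have h3 : ‖Cau (fun y => chi y * U0 f y) x‖ ≤ k2 * (2 * sC * A) := by
    refine Cau_bound (gg_sup2 f) (fun y => ?_) x
    rw [norm_mul]
    have h4 : ‖U0 f y‖ ≤ 2 * sC * A := P0_sup (ext f) hA y
    calc ‖chi y‖ * ‖U0 f y‖ ≤ 1 * (2 * sC * A) :=
          mul_le_mul (norm_chi_le y) h4 (norm_nonneg _) zero_le_one
      _ = _ := one_mul _
  rw [T_apply]
  refine (norm_add_le _ _).trans ?_
  have h5 : ‖-2 * (U1 1 f x - Complex.I * U1 Complex.I f x)‖ ≤ 2 * (2 * sC * A + 2 * sC * A) := by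
    rw [norm_mul]
    have h6 : ‖(-2 : ℂ)‖ = 2 := by simp
    rw [h6]
    refine mul_le_mul_of_nonneg_left ((norm_sub_le _ _).trans ?_) (by norm_num)
    rw [norm_mul, Complex.norm_I, one_mul]
    exact add_le_add h1 h2
  unfold tC
  linarith

/-! ### complex linearity -/

/-- `V` commutes with multiplication by complex constants -/
def CLin (V : Z →L[ℝ] Z) : Prop := ∀ (c : ℂ) (f : Z), V (mc c f) = mc c (V f)

theorem mc_mc (c d : ℂ) (f : Z) : mc c (mc d f) = mc d (mc c f) := by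
  ext x
  simp only [mc_apply]
  ring

theorem CLin.add {V W : Z →L[ℝ] Z} (hV : CLin V) (hW : CLin W) : CLin (V + W) := fun c f => by
  rw [_root_.add_apply, hV, hW, _root_.add_apply, map_add]

theorem CLin.sub {V W : Z →L[ℝ] Z} (hV : CLin V) (hW : CLin W) : CLin (V - W) := fun c f => by
  rw [_root_.sub_apply, hV, hW, _root_.sub_apply, map_sub]

theorem CLin.neg {V : Z →L[ℝ] Z} (hV : CLin V) : CLin (-V) := fun c f => by
  rw [_root_.neg_apply, hV, _root_.neg_apply, map_neg]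

theorem CLin.comp {V W : Z →L[ℝ] Z} (hV : CLin V) (hW : CLin W) : CLin (V.comp W) := fun c f => by
  rw [ContinuousLinearMap.comp_apply, hW, hV, ContinuousLinearMap.comp_apply]

theorem CLin_mc (d : ℂ) : CLin (mc d) := fun c f => mc_mc d c f

theorem CLin_cx (Q : RH →L[ℝ] RH) : CLin (cx Q) := by
  intro c f
  have h1 : reZ (mc c f) = c.re • reZ f - c.im • imZ f := by
    ext x
    simp [Hol.smul_apply]
  have h2 : imZ (mc c f) = c.re • imZ f + c.im • reZ f := by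
    ext x
    simp [Hol.smul_apply]
  ext x
  rw [mc_apply, cx_apply, cx_apply, h1, h2, map_sub, map_add, map_smul, map_smul, map_smul,
    map_smul]
  simp only [Hol.sub_apply, Hol.add_apply, Hol.smul_apply, smul_eq_mul]
  push_cast
  conv_rhs => rw [← Complex.re_add_im c]
  ring_nf
  rw [Complex.I_sq]
  ring

theorem CLin_ext : CLin ext := fun c f => by
  ext x
  simp only [ext_apply, mc_apply]
  ring

theorem CLin_CauZ (ψ : Z) (hψ : Sup2 ψ) : CLin (CauZ ψ hψ) := fun c f => by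
  ext x
  rw [mc_apply, CauZ_apply, CauZ_apply, ← Cau_smul]
  refine congrFun (congrArg Cau (funext fun y => ?_)) x
  rw [mc_apply]
  ring

theorem CLin_U0 : CLin U0 := (CLin_cx _).comp CLin_ext
theorem CLin_U1 (v : ℂ) : CLin (U1 v) := (CLin_cx _).comp CLin_ext
theorem CLin_U2 (v w : ℂ) : CLin (U2 v w) := (CLin_cx _).comp CLin_ext
theorem CLin_K1 (v : ℂ) : CLin (K1 v) :=
  ((CLin_CauZ _ _).comp CLin_U0).add ((CLin_CauZ _ _).comp (CLin_U1 v))

theorem CLin_T : CLin T :=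
  ((CLin_mc _).comp ((CLin_U1 1).sub ((CLin_mc _).comp (CLin_U1 _)))).add
    ((CLin_CauZ _ _).comp CLin_U0)

theorem CLin_S : CLin S :=
  (((CLin_U2 _ _).neg.add ((CLin_mc _).comp ((CLin_U2 _ _).add (CLin_U2 _ _)))).add
    (CLin_U2 _ _)).add ((CLin_mc _).comp ((CLin_K1 _).sub ((CLin_mc _).comp (CLin_K1 _))))

theorem CLin_mulL (ψ : Z) : CLin (Hol.bilL (ContinuousLinearMap.mul ℝ ℂ) ψ) := fun c f => by
  ext x
  simp only [Hol.bilL_apply, mc_apply, ContinuousLinearMap.mul_apply']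
  ring

theorem CLin_hat : CLin hat := (CLin_ext.sub CLin_U0).add ((CLin_mulL _).comp CLin_U0)

end Vale.Agent.P267.H515
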